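import Mathlib
import Vale.Agent.P151.Events
import Vale.Agent.P165.Product.Susc

/-!
Connections inside a finite set with one edge closed: the cluster decomposition and the loss against
two independent connections.
-/

namespace Vale.Agent.P151.Critical

open MeasureTheory SimpleGraph
open Vale.Agent.P165 (perc Dep openGraph)
open Vale.Agent.P165.Product (inG connIn comp dep_comp dep_connIn connIn_mono mem_of_connIn
  measurableSet_connIn)
open scoped ENNReal

variable {W : Type} {H : SimpleGraph W} {B : Finset W} {ω : Sym2 W → Bool}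
  {o u w x z : W} {p : unitInterval}

lemma path_of_connIn (hx : x ∈ B) (h : ω ∈ connIn H B x z) :
    ∃ q : H.Walk x z, q.IsPath ∧ Op H ω q ∧ ∀ y ∈ q.support, y ∈ B := by
  classical
  obtain ⟨q⟩ := h
  have key : ∃ r : H.Walk x z, Op H ω r ∧ ∀ y ∈ r.support, y ∈ B := by
    induction q with
    | nil => exact ⟨.nil, fun _ h => absurd h List.not_mem_nil, fun y hy => by
        rw [List.mem_singleton.1 hy]; exact hx⟩
    | @cons a b c hab q ih =>
      obtain ⟨r, hr, hs⟩ := ih hab.1.2.2
      refine ⟨r.cons hab.1.1, fun f hf => ?_, fun y hy => ?_⟩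
      · rcases List.mem_cons.1 ((Walk.edges_cons _ _) ▸ hf) with rfl | hf
        · exact hab.2
        · exact hr f hf
      · rcases List.mem_cons.1 ((Walk.support_cons _ _) ▸ hy) with rfl | hy
        · exact hx
        · exact hs y hy
  obtain ⟨r, hr, hs⟩ := key
  exact ⟨r.bypass, r.bypass_isPath, hr.of_subset r.edges_bypass_subset_edges,
    fun y hy => hs y (r.support_bypass_subset_support hy)⟩

lemma connIn_of_op {q : H.Walk x z} (ho : Op H ω q) (hs : ∀ y ∈ q.support, y ∈ B) :
    ω ∈ connIn H B x z := by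
  induction q with
  | nil => exact Reachable.refl _
  | @cons a b c hab q ih =>
    refine (Adj.reachable (G := openGraph (inG H B) ω) ⟨⟨hab, hs a (by simp), ?_⟩,
      ho _ (by simp)⟩).trans (ih (fun f hf => ho f (by simp [hf])) fun y hy => hs y (by simp [hy]))
    exact hs b (by simp [Walk.start_mem_support q])

lemma connIn_step (h : H.Adj x z) (hx : x ∈ B) (hz : z ∈ B) (ho : ω s(x, z) = true) :
    ω ∈ connIn H B x z :=
  Adj.reachable (G := openGraph (inG H B) ω) ⟨⟨h, hx, hz⟩, ho⟩

lemma Dep.del_preimage {A : Set (Sym2 W → Bool)} {E : Finset (Sym2 W)} (h : Dep A E)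
    (e : Sym2 W) : Dep (del e ⁻¹' A) E := fun σ σ' he hσ => h _ _ (fun f hf => by
  rcases eq_or_ne f e with rfl | hne
  · simp [del]
  · simp [del, hne, he f hf]) hσ

variable [DecidableEq W]

/-- `e = (u, w)` joins the cluster of `o` to the cluster of `x`, inside `B`. -/
def joins (H : SimpleGraph W) (B : Finset W) (o u w x : W) : Set (Sym2 W → Bool) :=
  {ω | del s(u, w) ω ∈ connIn H B o u ∧ del s(u, w) ω ∈ connIn H B w x ∧
    del s(u, w) ω ∉ connIn H B o w}

omit [DecidableEq W] in
lemma dep_joins (H : SimpleGraph W) (B : Finset W) (o u w x : W) :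
    Dep (joins H B o u w x) B.sym2 :=
  (Dep.del_preimage (dep_connIn B o u) _).inter
    ((Dep.del_preimage (dep_connIn B w x) _).inter (Dep.del_preimage (dep_connIn B o w) _).compl)

omit [DecidableEq W] in
lemma del_le (e f : Sym2 W) (h : del e ω f = true) : ω f = true := (del_eq_true.1 h).2

/-- Opening `e` joins, closing it separates. -/
lemma joins_pivotal (hu : H.Adj u w) (huB : u ∈ B) (hwB : w ∈ B) (h : ω ∈ joins H B o u w x) :
    Function.update ω s(u, w) true ∈ connIn H B o x ∧
      Function.update ω s(u, w) false ∉ connIn H B o x := by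
  obtain ⟨h1, h2, h3⟩ := h
  have hle : ∀ f, del s(u, w) ω f = true → Function.update ω s(u, w) true f = true := fun f hf => by
    obtain ⟨hne, hf⟩ := del_eq_true.1 hf
    simp [hne, hf]
  refine ⟨(connIn_mono subset_rfl hle h1).trans ((connIn_step hu huB hwB (by simp)).trans
    (connIn_mono subset_rfl hle h2)), fun hc => h3 ?_⟩
  have : Function.update ω s(u, w) false = del s(u, w) ω := by
    funext f
    rcases eq_or_ne f s(u, w) with rfl | hne
    · simp [del]
    · simp [del, hne]
  rw [this] at hc
  exact hc.trans h2.symm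

/-- A connection in `B` either avoids `A` or occurs disjointly through one of its points. -/
lemma connIn_subset_off (A : Finset W) (hw : w ∈ B) (e : Sym2 W) :
    del e ⁻¹' connIn H B w x ⊆ {ω | w ∉ A ∧ del e ω ∈ connIn H (B \ A) w x} ∪
      ⋃ c ∈ A, OccL H [(w, c), (c, x)] := by
  classical
  intro ω h
  obtain ⟨q, hp, ho, hs⟩ := path_of_connIn hw h
  by_cases hA : ∃ c ∈ A, c ∈ q.support
  · obtain ⟨c, hc, hcq⟩ := hA
    have ho' : Op H ω q := ho.imp fun f hf => del_le e f hf
    exact Or.inr (Set.mem_iUnion₂.2 ⟨c, hc, occ₂ (hp.takeUntil hcq) (hp.dropUntil hcq)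
      (ho'.of_subset (q.edges_takeUntil_subset_edges hcq))
      (ho'.of_subset (q.edges_dropUntil_subset_edges hcq))
      fun f hf hf' => hp.isTrail.disjoint_edges_takeUntil_dropUntil hcq hf hf'⟩)
  · simp only [not_exists, not_and] at hA
    exact Or.inl ⟨fun hwA => hA w hwA q.start_mem_support,
      connIn_of_op ho fun y hy => Finset.mem_sdiff.2 ⟨hs y hy, fun hyA => hA y hyA hy⟩⟩

variable [Countable W]

/-- The event `joins` is at least the product of two connections, less the diagrams of a third
connection meeting the first cluster. -/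
lemma joins_lower (ho : o ∈ B) (huB : u ∈ B) (hwB : w ∈ B) :
    perc W p (del s(u, w) ⁻¹' connIn H B o u) * perc W p (del s(u, w) ⁻¹' connIn H B w x) ≤
      perc W p (joins H B o u w x) + ∑' c, perc W p {ω | Conn H ω o u ∧ Conn H ω o c} *
        (tau H p w c * tau H p c x) := by
  classical
  set e := s(u, w) with he
  set μ := perc W p
  let C : Finset W → Set (Sym2 W → Bool) := fun A => del e ⁻¹' {σ | comp H B o σ = A}
  let I := B.powerset.filter fun A => u ∈ A
  have hCm : ∀ A, MeasurableSet (C A) := fun A =>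
    measurable_del e (dep_comp B A ho).measurableSet
  have hdisj : ∀ (J : Finset (Finset W)),
      (J : Set (Finset W)).PairwiseDisjoint C := fun J A _ A' _ hne =>
    Set.disjoint_left.2 fun ω h h' => hne ((show comp H B o (del e ω) = A from h).symm.trans h')
  have hsum : μ (del e ⁻¹' connIn H B o u) = ∑ A ∈ I, μ (C A) := by
    rw [← measure_biUnion_finset (hdisj I) fun A _ => hCm A]
    congr 1
    ext ω
    simp only [Set.mem_preimage, Set.mem_iUnion, exists_prop, I, C, Finset.mem_filter,
      Finset.mem_powerset, Set.mem_ofPred_eq]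
    constructor
    · exact fun h => ⟨_, ⟨Finset.filter_subset _ _, Finset.mem_filter.2 ⟨huB, h⟩⟩, rfl⟩
    · rintro ⟨A, ⟨-, hu⟩, rfl⟩
      exact (Finset.mem_filter.1 hu).2
  set t : Finset W → ℝ≥0∞ := fun A => if w ∈ A then 0 else
    μ (del e ⁻¹' connIn H (B \ A) w x) with ht
  have hx : ∀ A, μ (del e ⁻¹' connIn H B w x) ≤ t A + ∑ c ∈ A, tau H p w c * tau H p c x := by
    intro A
    refine (measure_mono (connIn_subset_off A hwB e)).trans
      ((measure_union_le _ _).trans ?_)
    refine add_le_add ?_ ((measure_biUnion_finset_le _ _).trans (Finset.sum_le_sum fun c _ => ?_))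
    · by_cases hwA : w ∈ A
      · simp [hwA]
      · simp only [ht, if_neg hwA]
        exact measure_mono fun ω hω => hω.2
    · exact (occL_le _).trans (le_of_eq (by simp))
  have hjoin : ∑ A ∈ I, μ (C A) * t A ≤ μ (joins H B o u w x) := by
    have hind : ∀ A ∈ I, μ (C A) * t A ≤
        μ (C A ∩ {ω | w ∉ A ∧ del e ω ∈ connIn H (B \ A) w x}) := by
      intro A hA
      by_cases hwA : w ∈ A
      · simp [ht, hwA]
      have hA' := Finset.mem_powerset.1 (Finset.mem_filter.1 hA).1
      have hd : Disjoint (B.sym2.filter fun f => ∃ y ∈ A, y ∈ f) (B \ A).sym2 := by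
        refine Finset.disjoint_left.2 fun f hf hf' => ?_
        obtain ⟨-, y, hy, hyf⟩ := Finset.mem_filter.1 hf
        exact (Finset.mem_sdiff.1 (Finset.mem_sym2_iff.1 hf' y hyf)).2 hy
      have hi := P165.real_inter_of_disjoint (p := p) (Dep.del_preimage (dep_comp (H := H) B A ho) e)
        (Dep.del_preimage (dep_connIn (H := H) (B \ A) w x) e) hd
      simp only [measureReal_def, ← ENNReal.toReal_mul] at hi
      have hi' := (ENNReal.toReal_eq_toReal_iff' (measure_ne_top _ _)
        (ENNReal.mul_ne_top (measure_ne_top _ _) (measure_ne_top _ _))).1 hi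
      simp only [ht, if_neg hwA]
      rw [← hi']
      exact measure_mono fun ω hω => ⟨hω.1, hwA, hω.2⟩
    refine (Finset.sum_le_sum hind).trans ?_
    rw [← measure_biUnion_finset
      (f := fun A => C A ∩ {ω | w ∉ A ∧ del e ω ∈ connIn H (B \ A) w x})
      ((hdisj I).mono fun A => Set.inter_subset_left) fun A _ =>
      (hCm A).inter ((MeasurableSet.const _).inter
        (measurable_del e (measurableSet_connIn (H := H) (B \ A) w x)))]
    refine measure_mono fun ω hω => ?_
    simp only [Set.mem_iUnion, exists_prop, I, C, Finset.mem_filter, Finset.mem_powerset,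
      Set.mem_inter_iff, Set.mem_preimage, Set.mem_ofPred_eq] at hω
    obtain ⟨A, ⟨-, hu⟩, rfl, hwA, hwx⟩ := hω
    exact ⟨(Finset.mem_filter.1 hu).2, connIn_mono Finset.sdiff_subset (fun _ h => h) hwx,
      fun h => hwA (Finset.mem_filter.2 ⟨hwB, h⟩)⟩
  have hloss : ∑ A ∈ I, μ (C A) * ∑ c ∈ A, tau H p w c * tau H p c x ≤
      ∑' c, μ {ω | Conn H ω o u ∧ Conn H ω o c} * (tau H p w c * tau H p c x) := by
    calc ∑ A ∈ I, μ (C A) * ∑ c ∈ A, tau H p w c * tau H p c x
        = ∑ A ∈ I, ∑' c, (if c ∈ A then μ (C A) else 0) * (tau H p w c * tau H p c x) := by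
          refine Finset.sum_congr rfl fun A _ => ?_
          rw [Finset.mul_sum, tsum_eq_sum (s := A) fun c hc => by simp [hc]]
          exact Finset.sum_congr rfl fun c hc => by rw [if_pos hc]
      _ = ∑' c, (∑ A ∈ I with c ∈ A, μ (C A)) * (tau H p w c * tau H p c x) := by
          rw [← Summable.tsum_finsetSum fun _ _ => ENNReal.summable]
          simp only [Finset.sum_mul, Finset.sum_filter, ite_mul, zero_mul]
      _ ≤ _ := by
          refine ENNReal.tsum_le_tsum fun c => mul_le_mul_left ?_ _
          rw [← measure_biUnion_finset (hdisj _) fun A _ => hCm A]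
          refine measure_mono fun ω hω => ?_
          simp only [Set.mem_iUnion, exists_prop, I, C, Finset.mem_filter, Finset.mem_powerset,
            Set.mem_preimage, Set.mem_ofPred_eq] at hω
          obtain ⟨A, ⟨⟨-, hu⟩, hc⟩, rfl⟩ := hω
          have hconn : ∀ y, del e ω ∈ connIn H B o y → Conn H ω o y := fun y h => by
            obtain ⟨q, -, hq, -⟩ := path_of_connIn ho h
            exact ⟨q, hq.imp fun f hf => del_le e f hf⟩
          exact ⟨hconn u (Finset.mem_filter.1 hu).2, hconn c (Finset.mem_filter.1 hc).2⟩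
  calc μ (del e ⁻¹' connIn H B o u) * μ (del e ⁻¹' connIn H B w x)
      = ∑ A ∈ I, μ (C A) * μ (del e ⁻¹' connIn H B w x) := by rw [hsum, Finset.sum_mul]
    _ ≤ ∑ A ∈ I, (μ (C A) * t A + μ (C A) * ∑ c ∈ A, tau H p w c * tau H p c x) :=
        Finset.sum_le_sum fun A _ => by rw [← mul_add]; exact mul_le_mul_right (hx A) _
    _ = ∑ A ∈ I, μ (C A) * t A + ∑ A ∈ I, μ (C A) * ∑ c ∈ A, tau H p w c * tau H p c x :=
        Finset.sum_add_distrib
    _ ≤ _ := add_le_add hjoin hloss

/-- Closing an edge at the end of a connection costs one step. -/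
lemma connIn_del_end (ho : o ∈ B) (hu : H.Adj u w) :
    perc W p (connIn H B o u) ≤
      perc W p (del s(u, w) ⁻¹' connIn H B o u) + ENNReal.ofReal p * tau H p o w := by
  classical
  refine (measure_mono (t := del s(u, w) ⁻¹' connIn H B o u ∪ OccE H u w [(o, w)]) ?_).trans
    ((measure_union_le _ _).trans (add_le_add le_rfl ((occE_le _ _ _).trans (le_of_eq (by simp)))))
  intro ω h
  obtain ⟨q, hp, hq, hs⟩ := path_of_connIn ho h
  by_cases he : s(u, w) ∈ q.edges
  · have hw : w ∈ q.support := q.snd_mem_support_of_mem_edges he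
    have hnot : s(u, w) ∉ (q.takeUntil w hw).edges := fun hm =>
      Walk.endpoint_notMem_support_takeUntil hp hw hu.ne
        ((q.takeUntil w hw).fst_mem_support_of_mem_edges hm)
    exact Or.inr ⟨hq _ he, [(q.takeUntil w hw).edges.toFinset], .cons (seg_of_path (hp.takeUntil hw)
      (hq.of_subset (q.edges_takeUntil_subset_edges hw))) .nil, by simp, by simpa using hnot⟩
  · exact Or.inl (connIn_of_op (fun f hf => del_eq_true.2 ⟨fun e => he (e ▸ hf), hq f hf⟩) hs)

/-- Closing an edge at the start of a connection costs one step. -/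
lemma connIn_del_start (hw : w ∈ B) (hu : H.Adj u w) :
    perc W p (connIn H B w x) ≤
      perc W p (del s(u, w) ⁻¹' connIn H B w x) + ENNReal.ofReal p * tau H p u x := by
  classical
  refine (measure_mono (t := del s(u, w) ⁻¹' connIn H B w x ∪ OccE H u w [(u, x)]) ?_).trans
    ((measure_union_le _ _).trans (add_le_add le_rfl ((occE_le _ _ _).trans (le_of_eq (by simp)))))
  intro ω h
  obtain ⟨q, hp, hq, hs⟩ := path_of_connIn hw h
  by_cases he : s(u, w) ∈ q.edges
  · have hu' : u ∈ q.support := q.fst_mem_support_of_mem_edges he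
    have hnot : s(u, w) ∉ (q.dropUntil u hu').edges := fun hm => by
      have hw' := (q.dropUntil u hu').snd_mem_support_of_mem_edges hm
      have hnd := hp.support_nodup
      rw [← congrArg Walk.support (q.take_spec hu'), Walk.support_append, List.nodup_append] at hnd
      rcases List.mem_cons.1 ((q.dropUntil u hu').cons_tail_support ▸ hw') with h' | h'
      · exact hu.ne h'.symm
      · exact hnd.2.2 w (Walk.start_mem_support _) w h' rfl
    exact Or.inr ⟨hq _ he, [(q.dropUntil u hu').edges.toFinset], .cons (seg_of_path (hp.dropUntil hu')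
      (hq.of_subset (q.edges_dropUntil_subset_edges hu'))) .nil, by simp, by simpa using hnot⟩
  · exact Or.inl (connIn_of_op (fun f hf => del_eq_true.2 ⟨fun e => he (e ▸ hf), hq f hf⟩) hs)

omit [Countable W] in
/-- A connection stays in `B` or occurs disjointly through a point outside `B`. -/
lemma conn_subset_connIn :
    {ω | Conn H ω w x} ⊆ connIn H B w x ∪
      ⋃ y : {y // y ∉ B}, OccL H [(w, (y : W)), ((y : W), x)] := by
  intro ω h
  obtain ⟨q, hp, hq⟩ := (show Conn H ω w x from h).exists_path
  by_cases hB : ∀ y ∈ q.support, y ∈ B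
  · exact Or.inl (connIn_of_op hq hB)
  · simp only [not_forall] at hB
    obtain ⟨y, hy, hyB⟩ := hB
    exact Or.inr (Set.mem_iUnion.2 ⟨⟨y, hyB⟩, occ₂ (hp.takeUntil hy) (hp.dropUntil hy)
      (hq.of_subset (q.edges_takeUntil_subset_edges hy))
      (hq.of_subset (q.edges_dropUntil_subset_edges hy))
      fun f hf hf' => hp.isTrail.disjoint_edges_takeUntil_dropUntil hy hf hf'⟩)

lemma tau_le_connIn :
    tau H p w x ≤ perc W p (connIn H B w x) + ∑' y : {y // y ∉ B}, tau H p w y * tau H p y x :=
  (measure_mono conn_subset_connIn).trans ((measure_union_le _ _).trans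
    (add_le_add le_rfl ((measure_iUnion_le _).trans (ENNReal.tsum_le_tsum fun y =>
      (occL_le _).trans (le_of_eq (by simp))))))

end Vale.Agent.P151.Critical
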