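import Mathlib
import Vale.Agent.P165.Basic

/-!
Expectations over finitely many edges as functions of the density, and Russo's formula.
-/

namespace Vale.Agent.P151.Critical

open MeasureTheory Finset
open Vale.Agent.P165 (perc Dep)
open Function (update)

variable {α : Type} [DecidableEq α]

/-- The configuration open exactly on `U`. -/
def conf (U : Finset α) : α → Bool := fun a => decide (a ∈ U)

/-- The weight of a set of open coordinates. -/
def wt (E U : Finset α) (s : ℝ) : ℝ := ∏ e ∈ E, if e ∈ U then s else 1 - s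

/-- The expectation of `f` when the coordinates in `E` have density `s` and the others are
closed. -/
def ex (E : Finset α) (f : (α → Bool) → ℝ) (s : ℝ) : ℝ :=
  ∑ U ∈ E.powerset, wt E U s * f (conf U)

/-- The discrete derivative in the coordinate `e`. -/
def dd (e : α) (f : (α → Bool) → ℝ) (ω : α → Bool) : ℝ :=
  f (update ω e true) - f (update ω e false)

/-- The centred coordinate. -/
def cen (e : α) (s : ℝ) (ω : α → Bool) : ℝ := (if ω e then 1 else 0) - s

omit [DecidableEq α] in
lemma update_conf [DecidableEq α] {e : α} {U : Finset α} (he : e ∉ U) :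
    update (conf U) e true = conf (insert e U) ∧ update (conf U) e false = conf U := by
  constructor <;> funext a <;> rcases eq_or_ne a e with rfl | h <;> simp [conf, *]

lemma ex_insert {E : Finset α} {e : α} (he : e ∉ E) (f : (α → Bool) → ℝ) (s : ℝ) :
    ex (insert e E) f s = s * ex E (fun ω => f (update ω e true)) s
      + (1 - s) * ex E (fun ω => f (update ω e false)) s := by
  rw [ex, powerset_insert, sum_union (disjoint_left.2 fun U hU hU' => ?_), add_comm]
  · rw [sum_image fun U hU V hV h => by
      rw [← erase_insert (fun hm => he (mem_powerset.1 hU hm)), h,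
        erase_insert (fun hm => he (mem_powerset.1 hV hm))]]
    simp only [ex, mul_sum]
    congr 1 <;> refine sum_congr rfl fun U hU => ?_ <;>
      have hn : e ∉ U := fun hm => he (mem_powerset.1 hU hm)
    · rw [(update_conf hn).1, wt, prod_insert he, if_pos (mem_insert_self e U), wt, mul_assoc]
      congr 2
      exact prod_congr rfl fun a ha => by
        have : a ≠ e := fun h => he (h ▸ ha)
        simp [this]
    · rw [(update_conf hn).2, wt, prod_insert he, if_neg hn, wt, mul_assoc]
  · obtain ⟨V, -, rfl⟩ := mem_image.1 hU'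
    exact he (mem_powerset.1 hU (mem_insert_self e V))

lemma ex_empty (f : (α → Bool) → ℝ) (s : ℝ) : ex ∅ f s = f (conf ∅) := by simp [ex, wt]

lemma ex_one (E : Finset α) (s : ℝ) : ex E (fun _ => 1) s = 1 := by
  induction E using Finset.induction_on with
  | empty => rw [ex_empty]
  | @insert e E he ih => rw [ex_insert he, ih]; ring

lemma ex_add (E : Finset α) (f g : (α → Bool) → ℝ) (s : ℝ) :
    ex E (fun ω => f ω + g ω) s = ex E f s + ex E g s := by
  simp only [ex, mul_add, sum_add_distrib]

lemma ex_sub (E : Finset α) (f g : (α → Bool) → ℝ) (s : ℝ) :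
    ex E (fun ω => f ω - g ω) s = ex E f s - ex E g s := by
  simp only [ex, mul_sub, sum_sub_distrib]

lemma ex_mul_left (E : Finset α) (c : ℝ) (f : (α → Bool) → ℝ) (s : ℝ) :
    ex E (fun ω => c * f ω) s = c * ex E f s := by
  simp only [ex, mul_sum, mul_left_comm]

lemma ex_sum {ι : Type} (E : Finset α) (I : Finset ι) (f : ι → (α → Bool) → ℝ) (s : ℝ) :
    ex E (fun ω => ∑ i ∈ I, f i ω) s = ∑ i ∈ I, ex E (f i) s := by
  simp only [ex, mul_sum]
  exact sum_comm

lemma wt_nonneg (E U : Finset α) {s : ℝ} (h0 : 0 ≤ s) (h1 : s ≤ 1) : 0 ≤ wt E U s :=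
  prod_nonneg fun e _ => by split_ifs <;> linarith

lemma ex_mono {E : Finset α} {f g : (α → Bool) → ℝ} (h : ∀ ω, f ω ≤ g ω) {s : ℝ} (h0 : 0 ≤ s)
    (h1 : s ≤ 1) : ex E f s ≤ ex E g s :=
  sum_le_sum fun U _ => mul_le_mul_of_nonneg_left (h _) (wt_nonneg E U h0 h1)

lemma ex_nonneg {E : Finset α} {f : (α → Bool) → ℝ} (h : ∀ ω, 0 ≤ f ω) {s : ℝ} (h0 : 0 ≤ s)
    (h1 : s ≤ 1) : 0 ≤ ex E f s :=
  sum_nonneg fun U _ => mul_nonneg (wt_nonneg E U h0 h1) (h _)

/-- Cauchy-Schwarz. -/
lemma ex_sq_le {E : Finset α} {f : (α → Bool) → ℝ} (hf : ∀ ω, 0 ≤ f ω) (g : (α → Bool) → ℝ)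
    {s : ℝ} (h0 : 0 ≤ s) (h1 : s ≤ 1) :
    ex E (fun ω => f ω * g ω) s ^ 2 ≤ ex E f s * ex E (fun ω => f ω * g ω ^ 2) s := by
  refine sum_sq_le_sum_mul_sum_of_sq_le_mul _ (fun U _ => ?_) (fun U _ => ?_) fun U _ => ?_
  · exact mul_nonneg (wt_nonneg E U h0 h1) (hf _)
  · exact mul_nonneg (wt_nonneg E U h0 h1) (mul_nonneg (hf _) (sq_nonneg _))
  · exact le_of_eq (by ring)

/-- Russo's formula. -/
theorem hasDerivAt_ex (E : Finset α) : ∀ (f : (α → Bool) → ℝ) (s : ℝ),
    HasDerivAt (ex E f) (∑ e ∈ E, ex E (dd e f) s) s := by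
  induction E using Finset.induction_on with
  | empty =>
    intro f s
    rw [sum_empty, show ex ∅ f = fun _ => f (conf ∅) from funext (ex_empty f)]
    exact hasDerivAt_const s _
  | @insert e E he ih =>
    intro f s
    have h := ((hasDerivAt_id s).mul (ih (fun ω => f (update ω e true)) s)).add
      (((hasDerivAt_id s).const_sub 1).mul (ih (fun ω => f (update ω e false)) s))
    rw [show ex (insert e E) f = _ from funext (ex_insert he f)]
    refine h.congr_deriv ?_
    simp only [id_eq, one_mul, neg_mul, sum_insert he]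
    have hsplit : ∀ e' ∈ E, ex (insert e E) (dd e' f) s
        = s * ex E (dd e' fun ω => f (update ω e true)) s
          + (1 - s) * ex E (dd e' fun ω => f (update ω e false)) s := by
      intro e' he'
      have hne : e' ≠ e := fun h => he (h ▸ he')
      rw [ex_insert he]
      congr 3 <;> funext ω <;> simp only [dd, Function.update_comm hne]
    rw [sum_congr rfl hsplit, sum_add_distrib, ← mul_sum, ← mul_sum, ex_insert he]
    simp only [dd, Function.update_idem, ex_sub]
    ring

lemma continuous_ex (E : Finset α) (f : (α → Bool) → ℝ) : Continuous (ex E f) :=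
  continuous_iff_continuousAt.2 fun s => (hasDerivAt_ex E f s).continuousAt

/-- Integration by parts in one coordinate. -/
lemma ex_cen {E : Finset α} {e : α} (he : e ∈ E) (f : (α → Bool) → ℝ) (s : ℝ) :
    ex E (fun ω => cen e s ω * f ω) s = s * (1 - s) * ex E (dd e f) s := by
  rw [← insert_erase he, ex_insert (notMem_erase e E), ex_insert (notMem_erase e E)]
  simp only [cen, dd, Function.update_idem, Function.update_self, if_true, if_false,
    Bool.false_eq_true, ex_mul_left, ex_sub]
  ring

section perc

variable {W : Type} [DecidableEq W] {p : unitInterval}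

lemma real_eq_ex {A : Set (Sym2 W → Bool)} {E : Finset (Sym2 W)} (h : Dep A E) :
    (perc W p).real A = ex E (A.indicator 1) p := by
  classical
  let cyl : Finset (Sym2 W) → Set (Sym2 W → Bool) := fun U =>
    Set.pi (E : Set (Sym2 W)) fun e => {conf U e}
  have hcyl : ∀ U, (perc W p).real (cyl U) = wt E U p := fun U => by
    rw [measureReal_def, perc, Measure.infinitePi_pi _ fun _ _ => measurableSet_singleton _,
      ENNReal.toReal_prod]
    refine prod_congr rfl fun e _ => ?_
    by_cases hU : e ∈ U <;> simp [conf, hU]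
  have hA : A = ⋃ U ∈ E.powerset.filter (fun U => conf U ∈ A), cyl U := by
    ext ω
    simp only [Set.mem_iUnion, mem_filter, mem_powerset, exists_prop, cyl, Set.mem_pi,
      Finset.mem_coe, Set.mem_singleton_iff]
    constructor
    · intro hω
      have he : ∀ e ∈ E, ω e = conf (E.filter fun e => ω e = true) e := fun e he => by
        cases hb : ω e <;> simp [conf, he, hb]
      exact ⟨_, ⟨filter_subset _ _, h _ _ he hω⟩, he⟩
    · rintro ⟨U, ⟨-, hU⟩, he⟩
      exact h _ _ (fun e hE => (he e hE).symm) hU
  conv_lhs => rw [hA]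
  rw [measureReal_biUnion_finset]
  · simp only [hcyl, ex, Set.indicator_apply, Pi.one_apply, mul_ite, mul_one, mul_zero]
    rw [sum_filter]
  · intro U hU V hV hne
    refine Set.disjoint_left.2 fun ω hu hv => hne (Finset.ext fun e => ?_)
    have hUE := mem_powerset.1 (mem_filter.1 hU).1
    have hVE := mem_powerset.1 (mem_filter.1 hV).1
    by_cases hE : e ∈ E
    · simp only [cyl, Set.mem_pi, Finset.mem_coe, Set.mem_singleton_iff] at hu hv
      simpa [conf] using (hu e hE).symm.trans (hv e hE)
    · exact iff_of_false (fun h => hE (hUE h)) fun h => hE (hVE h)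
  · exact fun U _ => MeasurableSet.pi E.countable_toSet fun _ _ => measurableSet_singleton _

end perc

end Vale.Agent.P151.Critical
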