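import Mathlib
import Vale.Agent.P151.Critical.Poly
import Vale.Agent.P151.Critical.Cluster
import Vale.Agent.P165.Product.Local

/-!
The probability of leaving a finite set: its derivative is at most the square root of the product
with the expected number of edges at the cluster.
-/

namespace Vale.Agent.P151.Critical

open MeasureTheory Finset
open Vale.Agent.P165 (perc Dep openGraph)
open Vale.Agent.P165.Product (inG connIn exitB edgesAt connIn_mono exitB_mono mem_of_connIn
  mem_edgesAt)
open Function (update)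

variable {W : Type} [DecidableEq W] {H : SimpleGraph W} {B : Finset W} {o : W}

/-- The cluster of `o` in `B`, computed without `e`, touches `e`. -/
def reach (H : SimpleGraph W) (B : Finset W) (o : W) (e : Sym2 W) : Set (Sym2 W → Bool) :=
  {ω | ∃ z ∈ e, z ∈ B ∧ del e ω ∈ connIn H B o z}

lemma del_update (e : Sym2 W) (b : Bool) (ω : Sym2 W → Bool) :
    del e (update ω e b) = del e ω := by
  funext f
  rcases eq_or_ne f e with rfl | h <;> simp [del, *]

lemma del_update_comm {e f : Sym2 W} (h : f ≠ e) (b : Bool) (ω : Sym2 W → Bool) :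
    del e (update ω f b) = update (del e ω) f b := by
  funext g
  rcases eq_or_ne g e with rfl | hg
  · simp [del, h.symm]
  · rcases eq_or_ne g f with rfl | hf <;> simp [del, *]

omit [DecidableEq W] in
/-- A connection either avoids `f` or reaches an end of `f` avoiding it. -/
lemma connIn_del (f : Sym2 W) {σ : Sym2 W → Bool} {z : W} (ho : o ∈ B)
    (h : σ ∈ connIn H B o z) :
    del f σ ∈ connIn H B o z ∨ ∃ a ∈ f, a ∈ B ∧ del f σ ∈ connIn H B o a := by
  obtain ⟨q⟩ := h
  suffices ∀ {a b : W}, (openGraph (inG H B) σ).Walk a b → a ∈ B → del f σ ∈ connIn H B o a →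
      del f σ ∈ connIn H B o b ∨ ∃ a ∈ f, a ∈ B ∧ del f σ ∈ connIn H B o a from
    this q ho (SimpleGraph.Reachable.refl _)
  intro a b q
  induction q with
  | nil => exact fun _ h => Or.inl h
  | @cons a c b hab q ih =>
    intro ha hoa
    rcases eq_or_ne s(a, c) f with rfl | hne
    · exact Or.inr ⟨a, Sym2.mem_mk_left a c, ha, hoa⟩
    · exact ih hab.1.2.2 (hoa.trans (SimpleGraph.Adj.reachable
        (G := openGraph (inG H B) (del f σ)) ⟨hab.1, by simp [del, hne, hab.2]⟩))

/-- An edge which is pivotal for the exit is reached. -/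
lemma reach_of_pivotal (ho : o ∈ B) {e : Sym2 W} {ω : Sym2 W → Bool}
    (h1 : update ω e true ∈ exitB H B o) (h0 : update ω e false ∉ exitB H B o) :
    ω ∈ reach H B o e := by
  obtain ⟨u, v, hv, huv, hopen, hc⟩ := h1
  have hdel : update ω e false = del e (update ω e true) := by
    rw [del_update]
    funext f
    rcases eq_or_ne f e with rfl | h <;> simp [del, *]
  rcases connIn_del e ho hc with h | ⟨a, ha, haB, h⟩
  · rcases eq_or_ne s(u, v) e with rfl | hne
    · refine ⟨u, Sym2.mem_mk_left u v, mem_of_connIn ho hc, ?_⟩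
      rwa [del_update] at h
    · refine absurd ⟨u, v, hv, huv, ?_, hdel ▸ h⟩ h0
      rw [Function.update_of_ne hne] at hopen ⊢
      exact hopen
  · exact ⟨a, ha, haB, by rwa [del_update] at h⟩

/-- Two edges cannot each be needed to reach the other. -/
lemma reach_or (ho : o ∈ B) {e f : Sym2 W} (hne : f ≠ e) {ω : Sym2 W → Bool}
    (h : update ω f true ∈ reach H B o e) :
    update ω f false ∈ reach H B o e ∨ update ω e false ∈ reach H B o f := by
  obtain ⟨z, hz, hzB, hc⟩ := h
  have h0 : del f (del e (update ω f true)) = update (del e ω) f false := by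
    rw [del_update_comm hne, del_update]
    funext g
    rcases eq_or_ne g f with rfl | hg <;> simp [del, *]
  rcases connIn_del f ho hc with h | ⟨a, ha, haB, h⟩
  · exact Or.inl ⟨z, hz, hzB, by rwa [h0, ← del_update_comm hne] at h⟩
  · refine Or.inr ⟨a, ha, haB, ?_⟩
    convert h using 1
    rw [h0, del_update_comm hne.symm]
    funext g
    rcases eq_or_ne g e with rfl | hg <;> rcases eq_or_ne g f with hg' | hg' <;> simp_all [del]

omit [DecidableEq W] in
lemma reach_mono {e : Sym2 W} {ω η : Sym2 W → Bool} (hle : ∀ g, ω g = true → η g = true)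
    (h : ω ∈ reach H B o e) : η ∈ reach H B o e := by
  obtain ⟨z, hz, hzB, hc⟩ := h
  refine ⟨z, hz, hzB, connIn_mono subset_rfl (fun g hg => ?_) hc⟩
  obtain ⟨hne, hg⟩ := del_eq_true.1 hg
  exact del_eq_true.2 ⟨hne, hle g hg⟩

lemma update_le (e : Sym2 W) (ω : Sym2 W → Bool) :
    ∀ g, update ω e false g = true → update ω e true g = true := fun g hg => by
  rcases eq_or_ne g e with rfl | h <;> simp_all

lemma reach_update (e : Sym2 W) (b : Bool) (ω : Sym2 W → Bool) :
    update ω e b ∈ reach H B o e ↔ ω ∈ reach H B o e := by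
  simp [reach, del_update]

variable [H.LocallyFinite]

lemma dep_connIn_edgesAt (z : W) : Dep (connIn H B o z) (edgesAt H B) := by
  intro ω ω' he h
  refine SimpleGraph.Reachable.mono (G := openGraph (inG H B) ω) (G' := openGraph (inG H B) ω')
    (fun a b hab => ⟨hab.1, ?_⟩) h
  rw [← he _ (mem_edgesAt hab.1.2.1 hab.1.1)]
  exact hab.2

lemma dep_exitB (ho : o ∈ B) : Dep (exitB H B o) (edgesAt H B) := by
  rintro ω ω' he ⟨u, v, hv, huv, hopen, hc⟩
  refine ⟨u, v, hv, huv, ?_, dep_connIn_edgesAt u ω ω' he hc⟩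
  rw [← he _ (mem_edgesAt (mem_of_connIn ho hc) huv)]
  exact hopen

lemma dep_reach (e : Sym2 W) : Dep (reach H B o e) (edgesAt H B) := by
  rintro ω ω' he ⟨z, hz, hzB, hc⟩
  exact ⟨z, hz, hzB, Dep.del_preimage (dep_connIn_edgesAt z) e ω ω' he hc⟩

/-- The exit probability as a function of the density. -/
noncomputable def gB (H : SimpleGraph W) [H.LocallyFinite] (B : Finset W) (o : W) (s : ℝ) : ℝ :=
  ex (edgesAt H B) ((exitB H B o).indicator 1) s

/-- The squared derivative of the exit probability. -/
theorem sq_deriv_le (ho : o ∈ B) {s : ℝ} (h0 : 0 ≤ s) (h1 : s ≤ 1) :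
    ∃ d, HasDerivAt (gB H B o) d s ∧ s * (1 - s) * d ^ 2 * (s * (1 - s)) ≤
      gB H B o s * (s * (1 - s) *
        ∑ e ∈ edgesAt H B, ex (edgesAt H B) ((reach H B o e).indicator 1) s) := by
  classical
  set E := edgesAt H B
  set A : (Sym2 W → Bool) → ℝ := (exitB H B o).indicator 1
  let T : Sym2 W → (Sym2 W → Bool) → ℝ := fun e => (reach H B o e).indicator 1
  let M : (Sym2 W → Bool) → ℝ := fun ω => ∑ e ∈ E, cen e s ω * T e ω
  refine ⟨_, hasDerivAt_ex E A s, ?_⟩
  have hT : ∀ e b ω, T e (update ω e b) = T e ω := fun e b ω => by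
    simp only [T, Set.indicator_apply, reach_update, Pi.one_apply]
  have hA : ∀ ω, 0 ≤ A ω := fun ω => Set.indicator_nonneg (fun _ _ => zero_le_one) ω
  have hAM : ex E (fun ω => A ω * M ω) s = s * (1 - s) * ∑ e ∈ E, ex E (dd e A) s := by
    rw [show (fun ω => A ω * M ω) = fun ω => ∑ e ∈ E, cen e s ω * (T e ω * A ω) from
      funext fun ω => by simp only [M, mul_sum]; exact sum_congr rfl fun e _ => by ring,
      ex_sum, mul_sum]
    refine sum_congr rfl fun e he => ?_
    rw [ex_cen he]
    congr 2
    funext ω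
    simp only [dd, hT, ← mul_sub]
    by_cases hω : ω ∈ reach H B o e
    · simp [T, hω]
    · have : A (update ω e true) - A (update ω e false) = 0 := by
        by_cases h0 : update ω e false ∈ exitB H B o
        · simp [A, h0, exitB_mono (update_le e ω) h0]
        · have h1 : update ω e true ∉ exitB H B o := fun h => hω (reach_of_pivotal ho h h0)
          simp [A, h0, h1]
      rw [this, mul_zero]
  have hcross : ∀ e ∈ E, ∀ f ∈ E, f ≠ e →
      ex E (fun ω => cen e s ω * (cen f s ω * (T e ω * T f ω))) s = 0 := by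
    intro e he f hf hne
    rw [ex_cen he]
    refine mul_eq_zero_of_right _ ?_
    rw [show dd e (fun ω => cen f s ω * (T e ω * T f ω))
        = fun ω => cen f s ω * (T e ω * dd e (T f) ω) from funext fun ω => by
      simp only [dd, cen, hT, Function.update_of_ne hne]; ring, ex_cen hf]
    refine mul_eq_zero_of_right _ (Finset.sum_eq_zero fun U _ => mul_eq_zero_of_right _ ?_)
    generalize conf U = ω
    simp only [dd, Function.update_comm hne, hT, ← sub_mul]
    by_cases h : update ω f true ∈ reach H B o e ∧ update ω f false ∉ reach H B o e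
    · refine mul_eq_zero_of_right _ ?_
      have h' := (reach_or ho hne h.1).resolve_left h.2
      simp [T, h', reach_mono (update_le e ω) h']
    · refine mul_eq_zero_of_left ?_ _
      by_cases h0 : update ω f false ∈ reach H B o e
      · simp [T, h0, reach_mono (update_le f ω) h0]
      · have h1 : update ω f true ∉ reach H B o e := fun h1 => h ⟨h1, h0⟩
        simp [T, h0, h1]
  have hdiag : ∀ e ∈ E, ex E (fun ω => cen e s ω * (cen e s ω * (T e ω * T e ω))) s
      = s * (1 - s) * ex E (T e) s := by
    intro e he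
    rw [ex_cen he]
    congr 2
    funext ω
    simp only [dd, cen, Function.update_self, hT]
    by_cases hω : ω ∈ reach H B o e <;> simp [T, hω]
  have hM : ex E (fun ω => M ω ^ 2) s = s * (1 - s) * ∑ e ∈ E, ex E (T e) s := by
    rw [show (fun ω => M ω ^ 2)
        = fun ω => ∑ e ∈ E, ∑ f ∈ E, cen e s ω * (cen f s ω * (T e ω * T f ω)) from
      funext fun ω => by
        simp only [M, sq, sum_mul_sum]
        exact sum_congr rfl fun e _ => sum_congr rfl fun f _ => by ring, ex_sum, mul_sum]
    refine sum_congr rfl fun e he => ?_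
    rw [ex_sum, sum_eq_single_of_mem e he fun f hf hne => hcross e he f hf hne, hdiag e he]
  have hcs := ex_sq_le (E := E) hA M h0 h1
  rw [hAM] at hcs
  have hAM2 : ex E (fun ω => A ω * M ω ^ 2) s ≤ ex E (fun ω => M ω ^ 2) s :=
    ex_mono (fun ω => by
      by_cases hω : ω ∈ exitB H B o <;> simp [A, hω, sq_nonneg]) h0 h1
  rw [hM] at hAM2
  calc s * (1 - s) * (∑ e ∈ E, ex E (dd e A) s) ^ 2 * (s * (1 - s))
      = (s * (1 - s) * ∑ e ∈ E, ex E (dd e A) s) ^ 2 := by ring
    _ ≤ _ := hcs.trans (mul_le_mul_of_nonneg_left hAM2 (ex_nonneg hA h0 h1))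

end Vale.Agent.P151.Critical
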