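import Mathlib
import Vale.Agent.P151.Cayley
import Vale.Agent.P151.Critical.Poly
import Vale.Agent.P151.Critical.Cluster

/-!
The susceptibility grows at least like the inverse distance to the critical point, divided by the
degree.
-/

namespace Vale.Agent.P151.Critical

open MeasureTheory Finset Filter
open Vale.Agent.P165 (perc pc)
open Vale.Agent.P165.Product (connIn dep_connIn connIn_mono mem_of_connIn measurableSet_connIn
  real_mono)
open scoped ENNReal Topology

variable {Γ : Type} [Group Γ] [Countable Γ] {S : Finset Γ}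

lemma two_mono {a b : unitInterval} (h : (a : ℝ) ≤ b) (x y : Γ) : two S a x y ≤ two S b x y := by
  simp only [two, tau]
  rw [← ofReal_measureReal (measure_ne_top _ _), ← ofReal_measureReal (measure_ne_top _ _)]
  exact ENNReal.ofReal_le_ofReal (real_mono (measurableSet_conn x y)
    (fun ω η he hm => Conn.mono hm he) h)

lemma chi_mono {a b : unitInterval} (h : (a : ℝ) ≤ b) : chi S a ≤ chi S b :=
  ENNReal.tsum_le_tsum fun x => two_mono h 1 x

lemma tsum_two (p : unitInterval) (w : Γ) : ∑' x, two S p w x = chi S p := by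
  rw [chi, ← (Equiv.mulLeft w).tsum_eq]
  refine tsum_congr fun x => ?_
  have := inv_two S p w 1 x
  rw [mul_one] at this
  exact this

lemma sum_two_le (p : unitInterval) (w : Γ) (B : Finset Γ) : ∑ x ∈ B, two S p w x ≤ chi S p :=
  (ENNReal.sum_le_tsum B).trans (tsum_two p w).le

variable [DecidableEq Γ]

/-- The pairs of a vertex and a step inside `B`. -/
def pairs (S B : Finset Γ) : Finset (Γ × Γ) := (B ×ˢ S).filter fun t => t.1 * t.2 ∈ B

omit [Countable Γ] in
lemma sum_pairs_le {B : Finset Γ} (f : Γ → Γ → ℝ≥0∞) :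
    ∑ t ∈ pairs S B, f t.1 t.2 ≤ ∑ s ∈ S, ∑' u, f u s := by
  refine (sum_le_sum_of_subset (filter_subset _ _)).trans ?_
  rw [sum_product, sum_comm]
  exact sum_le_sum fun s _ => ENNReal.sum_le_tsum B

/-- The joining events are at least two free connections, less small diagrams. -/
lemma main_sum {p : unitInterval} (hS : Gen S) {ε : ℝ≥0∞}
    (hmid : ∀ x, ∑ s ∈ S, ins s (two S p) (kpow (two S p) 2) x x ≤ ε) {B : Finset Γ}
    (h1 : (1 : Γ) ∈ B) :
    ∑ t ∈ pairs S B, ∑ x ∈ B,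
        perc Γ p (connIn (cg S) B 1 t.1) * perc Γ p (connIn (cg S) B (t.1 * t.2) x) ≤
      (∑ t ∈ pairs S B, ∑ x ∈ B, perc Γ p (joins (cg S) B 1 t.1 (t.1 * t.2) x))
        + chi S p ^ 2 * (2 * (ENNReal.ofReal p * S.card) + ε) := by
  classical
  set P := ENNReal.ofReal p
  set τ := two S p
  let third : Γ → Γ → Γ → ℝ≥0∞ := fun u s x =>
    ∑' c, (∑' z, τ 1 z * (τ z u * τ z c)) * (τ (u * s) c * τ c x)
  have key : ∀ t ∈ pairs S B, ∀ x ∈ B,
      perc Γ p (connIn (cg S) B 1 t.1) * perc Γ p (connIn (cg S) B (t.1 * t.2) x) ≤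
        perc Γ p (joins (cg S) B 1 t.1 (t.1 * t.2) x) + third t.1 t.2 x
          + (P * τ 1 (t.1 * t.2) * τ (t.1 * t.2) x + τ 1 t.1 * (P * τ t.1 x)) := by
    rintro ⟨u, s⟩ ht x hx
    obtain ⟨hus, hw⟩ := mem_filter.1 ht
    obtain ⟨hu, hs⟩ := mem_product.1 hus
    have hadj : (cg S).Adj u (u * s) := dart_adj hS hs
    have hle : ∀ a b, a ∈ B → perc Γ p (connIn (cg S) B a b) ≤ τ a b := fun a b ha =>
      measure_mono fun ω hω => by
        obtain ⟨q, -, hq, -⟩ := path_of_connIn ha hω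
        exact ⟨q, hq⟩
    have hdel : ∀ a b, a ∈ B → perc Γ p (del s(u, u * s) ⁻¹' connIn (cg S) B a b) ≤ τ a b :=
      fun a b ha => measure_mono fun ω hω => by
        obtain ⟨q, -, hq, -⟩ := path_of_connIn ha hω
        exact ⟨q, hq.imp fun f hf => del_le _ f hf⟩
    have hthird : ∑' c, perc Γ p {ω | Conn (cg S) ω 1 u ∧ Conn (cg S) ω 1 c} *
        (τ (u * s) c * τ c x) ≤ third u s x := by
      refine ENNReal.tsum_le_tsum fun c => mul_le_mul_left ?_ _
      refine (measure_mono tree_subset).trans ((measure_iUnion_le _).trans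
        (ENNReal.tsum_le_tsum fun z => (occL_le _).trans (le_of_eq (by simp [τ, two]))))
    calc perc Γ p (connIn (cg S) B 1 u) * perc Γ p (connIn (cg S) B (u * s) x)
        ≤ (perc Γ p (del s(u, u * s) ⁻¹' connIn (cg S) B 1 u) + P * τ 1 (u * s)) *
            perc Γ p (connIn (cg S) B (u * s) x) :=
          mul_le_mul_left (connIn_del_end h1 hadj) _
      _ = perc Γ p (del s(u, u * s) ⁻¹' connIn (cg S) B 1 u) *
            perc Γ p (connIn (cg S) B (u * s) x) +
          P * τ 1 (u * s) * perc Γ p (connIn (cg S) B (u * s) x) := add_mul _ _ _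
      _ ≤ perc Γ p (del s(u, u * s) ⁻¹' connIn (cg S) B 1 u) *
            (perc Γ p (del s(u, u * s) ⁻¹' connIn (cg S) B (u * s) x) + P * τ u x) +
          P * τ 1 (u * s) * τ (u * s) x :=
          add_le_add (mul_le_mul_right (connIn_del_start hw hadj) _)
            (mul_le_mul_right (hle _ _ hw) _)
      _ = perc Γ p (del s(u, u * s) ⁻¹' connIn (cg S) B 1 u) *
            perc Γ p (del s(u, u * s) ⁻¹' connIn (cg S) B (u * s) x) +
          (P * τ 1 (u * s) * τ (u * s) x +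
            perc Γ p (del s(u, u * s) ⁻¹' connIn (cg S) B 1 u) * (P * τ u x)) := by ring
      _ ≤ _ := add_le_add ((joins_lower h1 hu hw).trans (add_le_add le_rfl hthird))
          (add_le_add le_rfl (mul_le_mul_left (hdel _ _ h1) _))
  refine (sum_le_sum fun t ht => sum_le_sum fun x hx => key t ht x hx).trans ?_
  simp only [sum_add_distrib]
  rw [add_assoc]
  refine add_le_add le_rfl ?_
  have e1 : ∑ t ∈ pairs S B, ∑ x ∈ B, P * τ 1 (t.1 * t.2) * τ (t.1 * t.2) x
      ≤ S.card * (P * chi S p ^ 2) := by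
    refine (sum_pairs_le fun u s => ∑ x ∈ B, P * τ 1 (u * s) * τ (u * s) x).trans ?_
    rw [← nsmul_eq_mul, ← sum_const]
    refine sum_le_sum fun s _ => ?_
    calc ∑' u, ∑ x ∈ B, P * τ 1 (u * s) * τ (u * s) x
        ≤ ∑' u, P * τ 1 (u * s) * chi S p := ENNReal.tsum_le_tsum fun u => by
          rw [← mul_sum]; exact mul_le_mul_right (sum_two_le p _ B) _
      _ = P * chi S p ^ 2 := by
          rw [ENNReal.tsum_mul_right, ENNReal.tsum_mul_left,
            show ∑' u, τ 1 (u * s) = chi S p from ((Equiv.mulRight s).tsum_eq (τ 1)).trans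
              (tsum_two p 1), sq, mul_assoc]
  have e2 : ∑ t ∈ pairs S B, ∑ x ∈ B, τ 1 t.1 * (P * τ t.1 x)
      ≤ S.card * (P * chi S p ^ 2) := by
    refine (sum_pairs_le fun u _ => ∑ x ∈ B, τ 1 u * (P * τ u x)).trans ?_
    rw [← nsmul_eq_mul, ← sum_const]
    refine sum_le_sum fun s _ => ?_
    calc ∑' u, ∑ x ∈ B, τ 1 u * (P * τ u x)
        ≤ ∑' u, τ 1 u * (P * chi S p) := ENNReal.tsum_le_tsum fun u => by
          rw [← mul_sum, ← mul_sum]
          exact mul_le_mul_right (mul_le_mul_right (sum_two_le p _ B) _) _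
      _ = P * chi S p ^ 2 := by rw [ENNReal.tsum_mul_right, tsum_two, sq]; ring
  have e3 : ∑ t ∈ pairs S B, ∑ x ∈ B, third t.1 t.2 x ≤ chi S p ^ 2 * ε := by
    refine (sum_pairs_le fun u s => ∑ x ∈ B, third u s x).trans ?_
    calc ∑ s ∈ S, ∑' u, ∑ x ∈ B, third u s x
        ≤ ∑ s ∈ S, ∑' u, (∑' c, (∑' z, τ 1 z * (τ z u * τ z c)) * τ (u * s) c) * chi S p := by
          refine sum_le_sum fun s _ => ENNReal.tsum_le_tsum fun u => ?_
          simp only [third]
          rw [← Summable.tsum_finsetSum fun _ _ => ENNReal.summable, ← ENNReal.tsum_mul_right]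
          refine ENNReal.tsum_le_tsum fun c => ?_
          rw [← mul_sum, ← mul_sum, mul_assoc]
          exact mul_le_mul_right (mul_le_mul_right (sum_two_le p _ B) _) _
      _ = ∑ s ∈ S, (∑' z, τ 1 z * ins s τ (kpow τ 2) z z) * chi S p := by
          refine sum_congr rfl fun s _ => ?_
          rw [ENNReal.tsum_mul_right]
          congr 1
          calc ∑' u, ∑' c, (∑' z, τ 1 z * (τ z u * τ z c)) * τ (u * s) c
              = ∑' u, ∑' c, ∑' z, τ 1 z * (τ z u * (τ (u * s) c * τ c z)) :=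
                tsum_congr fun u => tsum_congr fun c => by
                  rw [← ENNReal.tsum_mul_right]
                  exact tsum_congr fun z => by
                    rw [show τ c z = τ z c from symm_two S p c z]; ring
            _ = ∑' z, ∑' u, ∑' c, τ 1 z * (τ z u * (τ (u * s) c * τ c z)) :=
                (tsum_congr fun u => ENNReal.tsum_comm).trans ENNReal.tsum_comm
            _ = _ := tsum_congr fun z => by
                simp only [ENNReal.tsum_mul_left, ins, kpow_two, kmul]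
      _ = (∑' z, τ 1 z * ∑ s ∈ S, ins s τ (kpow τ 2) z z) * chi S p := by
          rw [← sum_mul]
          congr 1
          simp only [mul_sum]
          rw [Summable.tsum_finsetSum fun _ _ => ENNReal.summable]
      _ ≤ (∑' z, τ 1 z * ε) * chi S p :=
          mul_le_mul_left (ENNReal.tsum_le_tsum fun z => mul_le_mul_right (hmid z) _) _
      _ = _ := by rw [ENNReal.tsum_mul_right, tsum_two, sq]; ring
  refine (add_le_add e3 (add_le_add e1 e2)).trans (le_of_eq ?_)
  ring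

/-- The expected number of points of `B` joined to the origin inside `B`. -/
noncomputable def fB (S B : Finset Γ) (s : ℝ) : ℝ :=
  ∑ x ∈ B, ex B.sym2 ((connIn (cg S) B 1 x).indicator 1) s

omit [Countable Γ] in
lemma fB_eq (B : Finset Γ) (p : unitInterval) :
    fB S B p = ∑ x ∈ B, (perc Γ p).real (connIn (cg S) B 1 x) :=
  sum_congr rfl fun x _ => (real_eq_ex (dep_connIn B 1 x)).symm

omit [Countable Γ] in
lemma dd_connIn_nonneg (B : Finset Γ) (e : Sym2 Γ) (x : Γ) (ω : Sym2 Γ → Bool) :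
    0 ≤ dd e ((connIn (cg S) B 1 x).indicator 1) ω := by
  by_cases h : Function.update ω e false ∈ connIn (cg S) B 1 x
  · have h' : Function.update ω e true ∈ connIn (cg S) B 1 x := by
      refine connIn_mono subset_rfl (fun f hf => ?_) h
      rcases eq_or_ne f e with rfl | hne <;> simp_all
    simp [dd, h, h']
  · simp only [dd, Set.indicator_of_notMem h, sub_zero]
    exact Set.indicator_nonneg (fun _ _ => zero_le_one) _

omit [Countable Γ] in
/-- Each edge joins in at most one direction, and then it is pivotal. -/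
lemma sum_joins_le (hS : Gen S) {B : Finset Γ} (p : unitInterval) :
    ∑ t ∈ pairs S B, ∑ x ∈ B, (perc Γ p).real (joins (cg S) B 1 t.1 (t.1 * t.2) x) ≤
      ∑ x ∈ B, ∑ e ∈ B.sym2, ex B.sym2 (dd e ((connIn (cg S) B 1 x).indicator 1)) p := by
  classical
  rw [sum_comm]
  refine sum_le_sum fun x _ => ?_
  have hmaps : ∀ t ∈ pairs S B, s(t.1, t.1 * t.2) ∈ B.sym2 := fun t ht =>
    mk_mem_sym2_iff.2 ⟨(mem_product.1 (mem_filter.1 ht).1).1, (mem_filter.1 ht).2⟩
  rw [← sum_fiberwise_of_maps_to hmaps]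
  refine sum_le_sum fun e _ => ?_
  rw [sum_congr rfl fun t _ => real_eq_ex (p := p) (dep_joins (cg S) B 1 t.1 (t.1 * t.2) x),
    ← ex_sum]
  refine ex_mono (fun ω => ?_) p.2.1 p.2.2
  simp only [Set.indicator_apply, Pi.one_apply]
  rw [sum_boole]
  set F := ((pairs S B).filter fun t => s(t.1, t.1 * t.2) = e).filter
    fun t => ω ∈ joins (cg S) B 1 t.1 (t.1 * t.2) x
  rcases F.eq_empty_or_nonempty with hF | ⟨t, ht⟩
  · rw [hF, card_empty, Nat.cast_zero]
    exact dd_connIn_nonneg B e x ω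
  have hone : F.card ≤ 1 := by
    refine card_le_one.2 fun a ha b hb => ?_
    obtain ⟨ha, hja⟩ := mem_filter.1 ha
    obtain ⟨hb, hjb⟩ := mem_filter.1 hb
    have hab := (mem_filter.1 ha).2.trans (mem_filter.1 hb).2.symm
    rcases Sym2.eq_iff.1 hab with ⟨h1, h2⟩ | ⟨h1, h2⟩
    · exact Prod.ext h1 (mul_left_cancel (h1 ▸ h2))
    · have hu := hjb.1
      rw [← hab, ← h2] at hu
      exact absurd hu hja.2.2
  obtain ⟨ht, hjt⟩ := mem_filter.1 ht
  obtain ⟨hp, rfl⟩ := mem_filter.1 ht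
  obtain ⟨hus, hw⟩ := mem_filter.1 hp
  obtain ⟨h1, h2⟩ := joins_pivotal (dart_adj hS (mem_product.1 hus).2) (mem_product.1 hus).1 hw hjt
  simp only [dd, Set.indicator_of_mem h1, Set.indicator_of_notMem h2, Pi.one_apply, sub_zero]
  exact_mod_cast hone

/-- A connection rarely leaves a large finite set. -/
lemma sum_two_le_connIn {p b : unitInterval} (hpb : (p : ℝ) ≤ b) (T B : Finset Γ) (w : Γ) :
    ∑ x ∈ T, two S p w x ≤ ∑ x ∈ T, perc Γ p (connIn (cg S) B w x)
      + (∑' y : {y // y ∉ B}, two S b w y) * chi S b := by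
  refine (sum_le_sum fun x _ => tau_le_connIn (H := cg S) (B := B)).trans ?_
  rw [sum_add_distrib]
  refine add_le_add le_rfl ?_
  rw [← Summable.tsum_finsetSum fun _ _ => ENNReal.summable, ← ENNReal.tsum_mul_right]
  refine ENNReal.tsum_le_tsum fun y => ?_
  rw [← mul_sum]
  exact mul_le_mul' (two_mono hpb w y) ((sum_two_le p _ T).trans (chi_mono hpb))

/-- The susceptibility is nearly attained inside a large finite set. -/
lemma chi_le_connIn {p b : unitInterval} (hpb : (p : ℝ) ≤ b) (B : Finset Γ) {w : Γ} (hw : w ∈ B) :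
    chi S p ≤ ∑ x ∈ B, perc Γ p (connIn (cg S) B w x)
      + (∑' y : {y // y ∉ B}, two S b w y) * chi S b := by
  rw [← tsum_two p w, ENNReal.tsum_eq_iSup_sum]
  refine iSup_le fun T => (sum_two_le_connIn hpb T B w).trans (add_le_add ?_ le_rfl)
  refine (sum_le_sum_of_subset (subset_union_left (s₂ := B))).trans (le_of_eq ?_)
  exact (sum_subset (subset_union_right (s₁ := T)) fun x _ hx => measure_mono_null
    (t := ∅) (fun ω hω => hx (mem_of_connIn hw hω)) measure_empty).symm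

omit [DecidableEq Γ] [Countable Γ] in
lemma one_le_chi {q : unitInterval} (hq : chi S q ≠ ⊤) : 1 ≤ (chi S q).toReal := by
  have h : (1 : ℝ≥0∞) ≤ chi S q := le_trans (by simp [two, tau_self]) (ENNReal.le_tsum (1 : Γ))
  simpa using ENNReal.toReal_mono hq h

/-- The differential inequality at one density. -/
lemma deriv_ge (hS : Gen S) (hD : 16 ≤ S.card) {q : unitInterval} (hqfin : chi S q ≠ ⊤)
    (hqD : (q : ℝ) * S.card ≤ 2) (hqmid : ∀ x y, ∑ s ∈ S, ins s (two S q) (kpow (two S q) 2) x y ≤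
      ENNReal.ofReal (1 / 4) * S.card) {T B : Finset Γ} (h1B : (1 : Γ) ∈ B) (hTB : T ⊆ B)
    (hTS : ∀ t ∈ T ×ˢ S, t.1 * t.2 ∈ B) {η : ℝ} (hη0 : 0 < η) (hη1 : η ≤ 1 / 24)
    (hlowT : (chi S q).toReal - 2 * η ≤ ∑ u ∈ T, (perc Γ q).real (connIn (cg S) B 1 u))
    (hlow : ∀ t ∈ T ×ˢ S, (chi S q).toReal - η ≤
      ∑ x ∈ B, (perc Γ q).real (connIn (cg S) B (t.1 * t.2) x)) :
    (S.card : ℝ) / 4 * fB S B q ^ 2 ≤
      ∑ x ∈ B, ∑ e ∈ B.sym2, ex B.sym2 (dd e ((connIn (cg S) B 1 x).indicator 1)) q := by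
  classical
  have hD0 : (0 : ℝ) < S.card := by exact_mod_cast lt_of_lt_of_le (by norm_num) hD
  set X := (chi S q).toReal
  have hX := one_le_chi hqfin
  have hsum := main_sum hS (fun x => hqmid x x) h1B (p := q)
  have hfinR : chi S q ^ 2 * (2 * (ENNReal.ofReal q * S.card) + ENNReal.ofReal (1 / 4) * S.card)
      ≠ ⊤ := by
    simp [ENNReal.mul_eq_top, hqfin]
  have hfinJ : ∑ t ∈ pairs S B, ∑ x ∈ B, perc Γ q (joins (cg S) B 1 t.1 (t.1 * t.2) x) ≠ ⊤ :=
    ENNReal.sum_ne_top.2 fun _ _ => ENNReal.sum_ne_top.2 fun _ _ => measure_ne_top _ _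
  have h' := ENNReal.toReal_mono (ENNReal.add_ne_top.2 ⟨hfinJ, hfinR⟩) hsum
  rw [ENNReal.toReal_add hfinJ hfinR,
    ENNReal.toReal_sum fun _ _ => ENNReal.sum_ne_top.2 fun _ _ => by
      simp [ENNReal.mul_eq_top],
    ENNReal.toReal_sum fun _ _ => ENNReal.sum_ne_top.2 fun _ _ => measure_ne_top _ _] at h'
  simp only [ENNReal.toReal_sum fun _ _ => measure_ne_top _ _,
    ENNReal.toReal_sum fun _ _ => ENNReal.mul_ne_top (measure_ne_top _ _) (measure_ne_top _ _),
    ENNReal.toReal_mul, ENNReal.toReal_pow] at h'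
  rw [ENNReal.toReal_add (by simp [ENNReal.mul_eq_top]) (by simp [ENNReal.mul_eq_top]),
    ENNReal.toReal_mul, ENNReal.toReal_mul, ENNReal.toReal_mul, ENNReal.toReal_ofNat,
    ENNReal.toReal_ofReal q.2.1, ENNReal.toReal_ofReal (by norm_num),
    ENNReal.toReal_natCast] at h'
  have hleft : (X - 2 * η) * ((S.card : ℝ) * (X - η)) ≤ ∑ t ∈ pairs S B, ∑ x ∈ B,
      (perc Γ q).real (connIn (cg S) B 1 t.1) *
        (perc Γ q).real (connIn (cg S) B (t.1 * t.2) x) := by
    have hsub : T ×ˢ S ⊆ pairs S B := fun t ht => by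
      obtain ⟨h1, h2⟩ := mem_product.1 ht
      exact mem_filter.2 ⟨mem_product.2 ⟨hTB h1, h2⟩,
        hTS t ht⟩
    refine le_trans ?_ (sum_le_sum_of_subset_of_nonneg hsub fun _ _ _ =>
      sum_nonneg fun _ _ => mul_nonneg measureReal_nonneg measureReal_nonneg)
    rw [sum_product]
    refine le_trans (mul_le_mul_of_nonneg_right (hlowT)
      (mul_nonneg hD0.le (by linarith))) ?_
    rw [sum_mul]
    refine sum_le_sum fun u hu => ?_
    rw [← nsmul_eq_mul, ← sum_const, mul_sum]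
    refine sum_le_sum fun t ht => ?_
    rw [← mul_sum]
    exact mul_le_mul_of_nonneg_left
      (hlow (u, t) (mem_product.2 ⟨hu, ht⟩))
      measureReal_nonneg
  have hJ := sum_joins_le hS (B := B) q
  simp only [measureReal_def] at hleft hJ
  have hfX : fB S B (q : ℝ) ≤ X := by
    rw [fB_eq]
    have h := (sum_le_sum fun x _ => measure_mono fun ω hω => by
      obtain ⟨r, -, hr, -⟩ := path_of_connIn h1B hω
      exact ⟨r, hr⟩).trans (sum_two_le (S := S) q 1 B)
    have := ENNReal.toReal_mono hqfin h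
    rwa [ENNReal.toReal_sum fun _ _ => measure_ne_top _ _] at this
  have hf0 : 0 ≤ fB S B (q : ℝ) := by
    rw [fB_eq]; exact sum_nonneg fun _ _ => measureReal_nonneg
  have hsq : (S.card : ℝ) / 4 * fB S B q ^ 2 ≤ (S.card : ℝ) / 4 * X ^ 2 :=
    mul_le_mul_of_nonneg_left (pow_le_pow_left₀ hf0 hfX 2) (by positivity)
  have hloss : X ^ 2 * (2 * ((q : ℝ) * S.card) + 1 / 4 * S.card) ≤ X ^ 2 * (S.card / 2) := by
    refine mul_le_mul_of_nonneg_left ?_ (sq_nonneg X)
    have : (16 : ℝ) ≤ S.card := by exact_mod_cast hD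
    linarith
  have h3 : 3 * η * X ≤ X ^ 2 / 8 := by nlinarith
  nlinarith [mul_nonneg hD0.le (mul_nonneg hη0.le hη0.le),
    mul_le_mul_of_nonneg_left h3 hD0.le]

omit [Countable Γ] [DecidableEq Γ] [Group Γ] in
lemma sub_le_sum {μ : Measure (Sym2 Γ → Bool)} [IsFiniteMeasure μ] {X : ℝ≥0∞} {η : ℝ} (hη : 0 ≤ η)
    {B : Finset Γ} {f : Γ → Set (Sym2 Γ → Bool)}
    (h : X ≤ ∑ x ∈ B, μ (f x) + ENNReal.ofReal η) : X.toReal - η ≤ ∑ x ∈ B, μ.real (f x) := by
  have hs : ∑ x ∈ B, μ (f x) ≠ ⊤ := ENNReal.sum_ne_top.2 fun _ _ => measure_ne_top _ _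
  have h' := ENNReal.toReal_mono (ENNReal.add_ne_top.2 ⟨hs, ENNReal.ofReal_ne_top⟩) h
  rw [ENNReal.toReal_add hs ENNReal.ofReal_ne_top, ENNReal.toReal_ofReal hη,
    ENNReal.toReal_sum fun _ _ => measure_ne_top _ _] at h'
  simp only [measureReal_def]
  linarith

lemma chi_le_two_mul {q b : unitInterval} (hq : (q : ℝ) ≤ b) {η : ℝ} (hη : 0 ≤ η)
    {T B : Finset Γ} (hB : (∑' y : {y // y ∉ B}, two S b 1 y) * chi S b ≤ ENNReal.ofReal η)
    (hT : ∑' y : {y // y ∉ T}, two S b 1 y ≤ ENNReal.ofReal η) :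
    chi S q ≤ ∑ u ∈ T, perc Γ q (connIn (cg S) B 1 u) + ENNReal.ofReal (2 * η) := by
  have h1 := (sum_two_le_connIn hq T B 1).trans (add_le_add le_rfl hB)
  have h2 : ∑' y : {y // y ∉ T}, two S q 1 y ≤ ENNReal.ofReal η :=
    (ENNReal.tsum_le_tsum fun y : {y // y ∉ T} => two_mono hq 1 (y : Γ)).trans hT
  have h3 : ∑ u ∈ T, two S q 1 u + ∑' y : {y // y ∉ T}, two S q 1 y = chi S q :=
    ENNReal.sum_add_tsum_compl T (two S q 1) |>.trans (tsum_two q 1)
  rw [two_mul, ENNReal.ofReal_add hη hη, ← add_assoc, ← h3]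
  exact add_le_add h1 h2

/-- The susceptibility at `a` is at most `4/(D (b - a))`. -/
lemma chi_le_of_lt (hS : Gen S) (hD : 16 ≤ S.card) {a b : unitInterval} (hab : (a : ℝ) < b)
    (hfin : ∀ q : unitInterval, (q : ℝ) ≤ b → chi S q ≠ ⊤ ∧ (q : ℝ) * S.card ≤ 2 ∧
      ∀ x y, ∑ s ∈ S, ins s (two S q) (kpow (two S q) 2) x y ≤
        ENNReal.ofReal (1 / 4) * S.card) :
    (chi S a).toReal ≤ 4 / (S.card * ((b : ℝ) - a)) := by
  classical
  have hbfin : chi S b ≠ ⊤ := (hfin b le_rfl).1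
  refine le_of_forall_pos_le_add fun δ hδ => ?_
  set η : ℝ := min δ (1 / 24) with hη
  have hη0 : 0 < η := lt_min hδ (by norm_num)
  have hη1 : η ≤ 1 / 24 := min_le_right _ _
  have hηE : (0 : ℝ≥0∞) < ENNReal.ofReal η := ENNReal.ofReal_pos.2 hη0
  have htail : ∀ w, Tendsto (fun B : Finset Γ => (∑' y : {y // y ∉ B}, two S b w y) * chi S b)
      atTop (𝓝 0) := fun w => by
    simpa using ENNReal.Tendsto.mul_const
      (ENNReal.tendsto_tsum_compl_atTop_zero (by rw [tsum_two]; exact hbfin)) (Or.inr hbfin)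
  obtain ⟨T, hT, hT1⟩ :=
    (((ENNReal.tendsto_tsum_compl_atTop_zero (f := two S b 1) (by rw [tsum_two]; exact hbfin)
      ).eventually (gt_mem_nhds hηE)).and (eventually_ge_atTop ({1} : Finset Γ))).exists
  let W₀ : Finset Γ := T ∪ (T ×ˢ S).image fun t => t.1 * t.2
  obtain ⟨B, hB, hBW⟩ := (((eventually_all_finset W₀).2 fun w _ =>
    (htail w).eventually (gt_mem_nhds hηE)).and (eventually_ge_atTop W₀)).exists
  have hTB : T ⊆ B := fun x hx => hBW (mem_union_left _ hx)
  have h1T : (1 : Γ) ∈ T := hT1 (mem_singleton_self _)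
  have h1B : (1 : Γ) ∈ B := hTB h1T
  have h1W : (1 : Γ) ∈ W₀ := mem_union_left _ h1T
  have hD0 : (0 : ℝ) < S.card := by exact_mod_cast lt_of_lt_of_le (by norm_num) hD
  have hlow : ∀ q : unitInterval, (q : ℝ) ≤ b → ∀ w ∈ W₀,
      (chi S q).toReal - η ≤ ∑ x ∈ B, (perc Γ q).real (connIn (cg S) B w x) := fun q hq w hw => by
    exact sub_le_sum hη0.le ((chi_le_connIn hq B (hBW hw)).trans (add_le_add le_rfl (hB w hw).le))
  have hlowT : ∀ q : unitInterval, (q : ℝ) ≤ b →
      (chi S q).toReal - 2 * η ≤ ∑ u ∈ T, (perc Γ q).real (connIn (cg S) B 1 u) := fun q hq => by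
    refine sub_le_sum (by positivity) ?_
    exact chi_le_two_mul hq hη0.le (hB 1 h1W).le hT.le
  -- the differential inequality
  have hder : ∀ s : ℝ, (a : ℝ) ≤ s → s ≤ b →
      ∃ d, HasDerivAt (fB S B) d s ∧ 1 ≤ fB S B s ∧ (S.card : ℝ) / 4 * fB S B s ^ 2 ≤ d := by
    intro s has hsb
    let q : unitInterval := ⟨s, a.2.1.trans has, hsb.trans b.2.2⟩
    obtain ⟨hqfin, hqD, hqmid⟩ := hfin q hsb
    have hd : HasDerivAt (fB S B)
        (∑ x ∈ B, ∑ e ∈ B.sym2, ex B.sym2 (dd e ((connIn (cg S) B 1 x).indicator 1)) s) s :=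
      HasDerivAt.fun_sum fun x _ => hasDerivAt_ex _ _ s
    refine ⟨_, hd, ?_, ?_⟩
    · rw [show fB S B s = fB S B (q : ℝ) from rfl, fB_eq]
      refine le_trans (le_of_eq ?_) (single_le_sum (fun _ _ => measureReal_nonneg) h1B)
      rw [show connIn (cg S) B 1 1 = Set.univ from
        Set.eq_univ_of_forall fun ω => SimpleGraph.Reachable.refl _, probReal_univ]
    exact deriv_ge hS hD hqfin hqD hqmid h1B hTB (fun t ht => hBW (mem_union_right _
      (mem_image.2 ⟨t, ht, rfl⟩))) hη0 hη1 (hlowT q hsb) fun t ht => hlow q hsb _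
        (mem_union_right _ (mem_image.2 ⟨t, ht, rfl⟩))
  -- integration
  have hcont : ContinuousOn (fun s => (fB S B s)⁻¹ + (S.card : ℝ) / 4 * s) (Set.Icc (a : ℝ) b) :=
    fun s hs => by
      obtain ⟨d, hd, h1, -⟩ := hder s hs.1 hs.2
      exact ((hd.inv (by linarith)).continuousAt.add
        (continuousAt_id.const_mul _)).continuousWithinAt
  have hanti : AntitoneOn (fun s => (fB S B s)⁻¹ + (S.card : ℝ) / 4 * s) (Set.Icc (a : ℝ) b) := by
    refine antitoneOn_of_deriv_nonpos (convex_Icc _ _) hcont ?_ ?_ <;> intro s hs <;>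
      rw [interior_Icc] at hs <;> obtain ⟨d, hd, h1, h2⟩ := hder s hs.1.le hs.2.le <;>
      have h := (hd.inv (by linarith)).add ((hasDerivAt_id s).const_mul ((S.card : ℝ) / 4))
    · exact h.differentiableAt.differentiableWithinAt
    · refine h.deriv.trans_le ?_
      have hpos : 0 < fB S B s ^ 2 := by positivity
      have : (S.card : ℝ) / 4 ≤ d / fB S B s ^ 2 := by rwa [le_div_iff₀ hpos]
      rw [neg_div, mul_one]
      linarith
  obtain ⟨-, -, hfa, -⟩ := hder a le_rfl hab.le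
  obtain ⟨-, -, hfb, -⟩ := hder b hab.le le_rfl
  have hmain := hanti (Set.left_mem_Icc.2 hab.le) (Set.right_mem_Icc.2 hab.le) hab.le
  simp only at hmain
  have hpos : 0 < (S.card : ℝ) / 4 * ((b : ℝ) - a) := mul_pos (by positivity) (sub_pos.2 hab)
  have hle : (S.card : ℝ) / 4 * ((b : ℝ) - a) ≤ (fB S B a)⁻¹ := by
    have : (0 : ℝ) ≤ (fB S B b)⁻¹ := inv_nonneg.2 (by linarith)
    linarith
  have hfa' : fB S B a ≤ 4 / (S.card * ((b : ℝ) - a)) := by
    calc fB S B a ≤ ((S.card : ℝ) / 4 * ((b : ℝ) - a))⁻¹ := (le_inv_comm₀ hpos (by linarith)).1 hle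
      _ = _ := by field_simp
  have := hlow a hab.le 1 h1W
  rw [← fB_eq] at this
  linarith [min_le_left δ (1 / 24 : ℝ)]

/-- Below the critical point the susceptibility is at most `4/(D (pc - p))`. -/
theorem chi_le_div (hS : Gen S) (hD : 16 ≤ S.card)
    (hyp : ∀ p : unitInterval, (p : ℝ) < pc (cg S) → chi S p ≠ ⊤ ∧ (p : ℝ) * S.card ≤ 2 ∧
      ∀ x y, ∑ s ∈ S, ins s (two S p) (kpow (two S p) 2) x y ≤
        ENNReal.ofReal (1 / 4) * S.card)
    (hpc : pc (cg S) ≤ 1) {a : unitInterval} (ha : (a : ℝ) < pc (cg S)) :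
    (chi S a).toReal ≤ 4 / (S.card * (pc (cg S) - a)) := by
  have hD0 : (0 : ℝ) < S.card := by exact_mod_cast lt_of_lt_of_le (by norm_num) hD
  set c := pc (cg S)
  have hlim : Tendsto (fun b : ℝ => 4 / ((S.card : ℝ) * (b - a))) (𝓝[<] c)
      (𝓝 (4 / ((S.card : ℝ) * (c - a)))) := by
    refine (ContinuousAt.tendsto ?_).mono_left nhdsWithin_le_nhds
    refine continuousAt_const.div ((continuousAt_id.sub continuousAt_const).const_mul _) ?_
    exact (mul_pos hD0 (sub_pos.2 ha)).ne'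
  refine ge_of_tendsto hlim ?_
  filter_upwards [Ioo_mem_nhdsLT ha] with b hb
  exact chi_le_of_lt hS hD (b := ⟨b, a.2.1.trans hb.1.le, hb.2.le.trans hpc⟩) hb.1
    fun q hq => hyp q (lt_of_le_of_lt hq hb.2)

end Vale.Agent.P151.Critical
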