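import Vale.Agent.P151.Expansion
import Vale.Agent.P151.Interfaces
import Vale.Agent.P165.Unique

/-!
The mean-field lower bound on the susceptibility, by sprinkling: `1 / χ(p) ≥ c |S| (p₂ - p)` for
`p < p₂ < p_c`.
-/

namespace Vale.Agent.P151.LowerBound

open MeasureTheory SimpleGraph
open Vale.Agent.P165 (perc pc)
open Vale.Agent.P165.Product (orQ orCfg map_orCfg coe_orQ edgesAt mem_edgesAt real_mono measurable_orCfg)
open scoped ENNReal Classical

variable {Γ : Type} [Group Γ] [Countable Γ] {S : Finset Γ} {p : unitInterval}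

/-- The cluster of the origin is `C` once the step `(u, u * s)` is closed. -/
def XC (S : Finset Γ) (u s : Γ) (C : Finset Γ) : Set (Sym2 Γ → Bool) :=
  {ω | cl (cg S) (del s(u, u * s) ω) 1 = ↑C}

/-- `C` is the cluster, the step is closed and the far side reaches `x` avoiding `C`. -/
def Piece (S : Finset Γ) (u s x : Γ) (C : Finset Γ) : Set (Sym2 Γ → Bool) :=
  (XC S u s C ∩ (isOpen s(u, u * s))ᶜ) ∩ {ω | Off (cg S) ↑C ω (u * s) x}

/-- The weight of a sprinkled gain at the step `(u, u * s)`. -/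
noncomputable def Lw (S : Finset Γ) (p : unitInterval) (u s x : Γ) : ℝ≥0∞ :=
  ∑' C : {C : Finset Γ // u ∈ C},
    perc Γ p (XC S u s C) * perc Γ p {ω | Off (cg S) ↑C.1 ω (u * s) x}

lemma measurableSet_off (A : Set Γ) (w x : Γ) :
    MeasurableSet {ω | Off (cg S) A ω w x} :=
  (measurable_avoid A (measurableSet_conn w x)).inter (MeasurableSet.const _)

lemma measurableSet_piece (u s x : Γ) (C : Finset Γ) : MeasurableSet (Piece S u s x C) :=
  ((measurableSet_cl _ 1 _).inter
    ((measurable_pi_apply s(u, u * s) : Measurable fun ω : Sym2 Γ → Bool => ω s(u, u * s))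
      (measurableSet_singleton true)).compl).inter (measurableSet_off _ _ _)

lemma perc_piece {u s x : Γ} (hS : Gen S) (hs : s ∈ S) {C : Finset Γ} (hu : u ∈ C) :
    perc Γ p (Piece S u s x C) =
      perc Γ p (XC S u s C) * ENNReal.ofReal (1 - (p : ℝ)) *
        perc Γ p {ω | Off (cg S) ↑C ω (u * s) x} := by
  set e := s(u, u * s)
  set T' := edgesAt (cg S) C
  have hadj : (cg S).Adj u (u * s) := dart_adj hS hs
  have heT : e ∈ T' := mem_edgesAt hu hadj
  have hX : DepOn (XC S u s C) (T'.erase e) := by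
    intro ω σ hag hc
    have hsl : Sealed (cg S) (cl (cg S) (del e ω) 1) (del e ω) (del e σ) := by
      refine sealed_cl fun c d hcd hc' => ?_
      rcases eq_or_ne (s(c, d)) e with h | h
      · simp [del, h]
      · simp only [del, Function.update_of_ne h]
        exact hag _ (Finset.mem_erase.2 ⟨h, mem_edgesAt (Finset.mem_coe.1 (hc ▸ hc')) hcd⟩)
    exact hsl.cl_eq.trans hc
  have h1 : perc Γ p (XC S u s C ∩ (isOpen e)ᶜ)
      = perc Γ p (XC S u s C) * ENNReal.ofReal (1 - (p : ℝ)) := by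
    refine (bern_inter_of_disjoint hX (depOn_isOpen e).compl (by simp)).trans ?_
    congr 1
    rw [prob_compl_eq_one_sub (depOn_isOpen e).measurableSet, bern_isOpen, ← ENNReal.ofReal_one,
      ← ENNReal.ofReal_sub _ p.2.1]
  let Fo : Set (Finset (Sym2 Γ)) := {t | ∃ q : (cg S).Walk (u * s) x,
    (∀ z ∈ q.support, z ∉ (↑C : Set Γ)) ∧ q.edges.toFinset = t}
  have hY : {ω : Sym2 Γ → Bool | Off (cg S) ↑C ω (u * s) x} = openOcc Fo := by
    ext ω
    simp only [Set.mem_ofPred_eq, off_iff, openOcc, Fo]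
    constructor
    · rintro ⟨q, hq, hq'⟩
      exact ⟨_, ⟨q, hq', rfl⟩, fun f hf => hq f (List.mem_toFinset.1 hf)⟩
    · rintro ⟨_, ⟨q, hq', rfl⟩, ho⟩
      exact ⟨q, fun f hf => ho f (List.mem_toFinset.2 hf), hq'⟩
  have hFo : ∀ t ∈ Fo, Disjoint t T' := by
    rintro _ ⟨q, hq, rfl⟩
    refine Finset.disjoint_left.2 fun f hf hf' => ?_
    obtain ⟨z, hzC, hz⟩ := Finset.mem_biUnion.1 hf'
    obtain ⟨y, -, rfl⟩ := Finset.mem_image.1 hz
    exact hq z (q.fst_mem_support_of_mem_edges (List.mem_toFinset.1 hf)) (Finset.mem_coe.2 hzC)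
  rw [Piece, hY]
  exact (bern_inter_openOcc ((hX.mono (Finset.erase_subset _ _)).inter
    ((depOn_isOpen e).compl.mono (by simpa using heT))) Fo hFo).trans (by rw [← h1]; rfl)

lemma perc_iUnion_piece (hS : Gen S) {u s x : Γ} (hs : s ∈ S) :
    perc Γ p (⋃ C : {C : Finset Γ // u ∈ C}, Piece S u s x C) =
      ENNReal.ofReal (1 - (p : ℝ)) * Lw S p u s x := by
  rw [measure_iUnion (fun C C' hne => Set.disjoint_left.2 fun ω h h' =>
    hne (Subtype.ext (Finset.coe_injective (h.1.1.symm.trans h'.1.1))))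
    fun C => measurableSet_piece u s x C.1, Lw, ← ENNReal.tsum_mul_left]
  exact tsum_congr fun C => by rw [perc_piece hS hs C.2]; ring

lemma thru_le (C : Finset Γ) (w x : Γ) :
    perc Γ p {ω | Thru (cg S) ↑C ω w x} ≤ ∑ c ∈ C, two S p w c * two S p c x := by
  refine (measure_mono (t := ⋃ c ∈ C, OccL (cg S) [(w, c), (c, x)]) ?_).trans
    ((measure_biUnion_finset_le _ _).trans (Finset.sum_le_sum fun c _ =>
      (occL_le _).trans (le_of_eq (by simp [two]))))
  rintro ω ⟨hc, hno⟩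
  obtain ⟨q, hp, hq⟩ := hc.exists_path
  obtain ⟨c, hcq, hcC⟩ : ∃ c ∈ q.support, c ∈ C := by
    by_contra h
    push Not at h
    exact hno (off_iff.2 ⟨q, hq, fun z hz hzC => h z hz (Finset.mem_coe.1 hzC)⟩)
  refine Set.mem_iUnion₂.2 ⟨c, hcC, occ₂ (hp.takeUntil hcq) (hp.dropUntil hcq)
    (hq.of_subset (q.edges_takeUntil_subset_edges hcq))
    (hq.of_subset (q.edges_dropUntil_subset_edges hcq)) fun f hf hf' => ?_⟩
  exact hp.isTrail.disjoint_edges_takeUntil_dropUntil hcq hf hf'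

/-- Closing the step costs little. -/
lemma two_le_del (u s : Γ) :
    two S p 1 u ≤ perc Γ p {ω | Conn (cg S) (del s(u, u * s) ω) 1 u}
      + ENNReal.ofReal p * two S p 1 (u * s) := by
  refine (measure_mono (t := {ω | Conn (cg S) (del s(u, u * s) ω) 1 u}
    ∪ OccE (cg S) (u * s) u [(1, u * s)]) ?_).trans ((measure_union_le _ _).trans
      (add_le_add le_rfl ((occE_le _ _ _).trans (le_of_eq (by simp [two])))))
  intro ω hω
  obtain ⟨q, hp, hq⟩ := (show Conn (cg S) ω 1 u from hω).exists_path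
  by_cases he : s(u, u * s) ∈ q.edges
  · refine Or.inr ?_
    have hw : u * s ∈ q.support := q.snd_mem_support_of_mem_edges he
    have ho : ω s(u * s, u) = true := by rw [Sym2.eq_swap]; exact hq _ he
    refine ⟨ho, [(q.takeUntil _ hw).edges.toFinset], .cons (seg_of_path (hp.takeUntil hw)
      (hq.of_subset (q.edges_takeUntil_subset_edges hw))) .nil, by simp, ?_⟩
    simp only [List.mem_singleton, forall_eq, List.mem_toFinset]
    intro hm
    have hus : u ≠ u * s := fun h => ((cg S).mem_edgeSet.1 (q.edges_subset_edgeSet he)).ne h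
    have hu : u ∈ (q.takeUntil _ hw).support :=
      (q.takeUntil _ hw).snd_mem_support_of_mem_edges hm
    exact Walk.endpoint_notMem_support_takeUntil hp hw hus hu
  · exact Or.inl (hq.conn_del he)

lemma perc_conn_del (hχ : chi S p ≠ ⊤) (u s : Γ) :
    perc Γ p {ω | Conn (cg S) (del s(u, u * s) ω) 1 u} ≤
      ∑' C : {C : Finset Γ // u ∈ C}, perc Γ p (XC S u s C) := by
  refine (measure_mono (t := (⋃ C : {C : Finset Γ // u ∈ C}, XC S u s C) ∪
    {ω | (cl (cg S) ω 1).Infinite}) fun ω hω => ?_).trans ((measure_union_le _ _).trans ?_)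
  · by_cases h : (cl (cg S) (del s(u, u * s) ω) 1).Finite
    · exact Or.inl (Set.mem_iUnion.2 ⟨⟨h.toFinset, h.mem_toFinset.2 hω⟩, h.coe_toFinset.symm⟩)
    · exact Or.inr (Set.Infinite.mono (fun y hy => hy.of_del) h)
  · rw [ae_cl_finite hχ 1, add_zero]
    exact measure_iUnion_le _

/-- The two possible losses at the step `(u, u * s)`. -/
noncomputable def err (S : Finset Γ) (p : unitInterval) (u s x : Γ) : ℝ≥0∞ :=
  ENNReal.ofReal p * two S p 1 (u * s) * two S p (u * s) x +
    ∑' c, (∑' z, two S p 1 z * two S p z u * two S p z c) * (two S p (u * s) c * two S p c x)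

lemma two_mul_two_le (hχ : chi S p ≠ ⊤) (u s x : Γ) :
    two S p 1 u * two S p (u * s) x ≤ Lw S p u s x + err S p u s x := by
  set w := u * s
  refine le_trans (mul_le_mul' (two_le_del u s) le_rfl) ?_
  rw [add_mul]
  refine le_trans (add_le_add (mul_le_mul' (perc_conn_del hχ u s) le_rfl) le_rfl) ?_
  rw [← ENNReal.tsum_mul_right]
  have hsplit : ∀ C : {C : Finset Γ // u ∈ C}, perc Γ p (XC S u s C) * two S p w x ≤
      perc Γ p (XC S u s C) * perc Γ p {ω | Off (cg S) ↑C.1 ω w x} +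
        ∑' c, (perc Γ p (XC S u s C) * (↑C.1 : Set Γ).indicator 1 c) *
          (two S p w c * two S p c x) := by
    intro C
    have h : two S p w x ≤ perc Γ p {ω | Off (cg S) ↑C.1 ω w x} +
        ∑ c ∈ C.1, two S p w c * two S p c x := by
      refine (measure_mono fun ω hω => ?_).trans
        ((measure_union_le _ _).trans (add_le_add le_rfl (thru_le C.1 w x)))
      by_cases h : Off (cg S) ↑C.1 ω w x
      · exact Or.inl h
      · exact Or.inr ⟨hω, h⟩
    refine (mul_le_mul' le_rfl h).trans (le_of_eq ?_)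
    rw [mul_add, Finset.mul_sum, tsum_eq_sum (s := C.1) fun c hc => by simp [hc]]
    congr 1
    exact Finset.sum_congr rfl fun c hc => by simp [hc]
  refine le_trans (add_le_add (ENNReal.tsum_le_tsum hsplit) le_rfl) ?_
  rw [ENNReal.tsum_add, err, add_assoc]
  refine add_le_add le_rfl ?_
  rw [add_comm]
  refine add_le_add le_rfl ?_
  rw [ENNReal.tsum_comm]
  refine ENNReal.tsum_le_tsum fun c => ?_
  rw [ENNReal.tsum_mul_right]
  refine mul_le_mul' ?_ le_rfl
  have hm : ∀ C : {C : Finset Γ // u ∈ C},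
      perc Γ p (XC S u s C) * (↑C.1 : Set Γ).indicator 1 c =
        perc Γ p (XC S u s C ∩ {_ω | c ∈ C.1}) := by
    intro C
    by_cases hc : c ∈ C.1 <;> simp [hc]
  simp only [hm]
  refine le_trans (le_of_eq (measure_iUnion (μ := perc Γ p)
    (f := fun C : {C : Finset Γ // u ∈ C} => XC S u s C ∩ {_ω | c ∈ C.1})
    (fun C C' hne => Set.disjoint_left.2 fun ω h h' =>
      hne (Subtype.ext (Finset.coe_injective (h.1.symm.trans h'.1))))
    fun C => (measurableSet_cl _ 1 _).inter (MeasurableSet.const _)).symm) ?_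
  refine (measure_mono (t := {ω | Conn (cg S) ω 1 u ∧ Conn (cg S) ω 1 c}) ?_).trans ?_
  · refine Set.iUnion_subset fun C ω h => ?_
    have e : cl (cg S) (del s(u, u * s) ω) 1 = ↑C.1 := h.1
    exact ⟨(show u ∈ cl (cg S) (del s(u, u * s) ω) 1 from e ▸ Finset.mem_coe.2 C.2).of_del,
      (show c ∈ cl (cg S) (del s(u, u * s) ω) 1 from e ▸ Finset.mem_coe.2 h.2).of_del⟩
  · exact (measure_mono tree_subset).trans ((measure_iUnion_le _).trans
      (ENNReal.tsum_le_tsum fun z => (occL_le _).trans (le_of_eq (by simp [two, mul_assoc]))))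

lemma tsum_two (v : Γ) : ∑' x, two S p v x = chi S p := by
  rw [chi, ← (Equiv.mulLeft v).tsum_eq]
  exact tsum_congr fun x => by simpa using inv_two S p v 1 x

lemma tsum_err_le {η : ℝ≥0∞}
    (hmid : ∀ x y, ∑ s ∈ S, ins s (two S p) (kpow (two S p) 2) x y ≤ η) :
    ∑' u, ∑ s ∈ S, ∑' x, err S p u s x ≤
      (ENNReal.ofReal p * S.card + η) * chi S p ^ 2 := by
  simp only [err, ENNReal.tsum_add, Finset.sum_add_distrib, add_mul]
  refine add_le_add (le_of_eq ?_) ?_
  · simp only [ENNReal.tsum_mul_left, tsum_two, mul_assoc]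
    rw [Summable.tsum_finsetSum fun s _ => ENNReal.summable]
    have : ∀ s : Γ, ∑' u, ENNReal.ofReal p * (two S p 1 (u * s) * chi S p)
        = ENNReal.ofReal p * (chi S p * chi S p) := fun s => by
      rw [ENNReal.tsum_mul_left, ENNReal.tsum_mul_right]
      congr 2
      exact (Equiv.mulRight s).tsum_eq (fun y => two S p 1 y)
    rw [Finset.sum_congr rfl fun s _ => this s, Finset.sum_const, nsmul_eq_mul]
    ring
  · have h1 : ∀ u s, ∑' x, ∑' c, (∑' z, two S p 1 z * two S p z u * two S p z c) *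
        (two S p (u * s) c * two S p c x) =
        (∑' z, two S p 1 z * (two S p z u * ∑' c, two S p (u * s) c * two S p c z)) * chi S p := by
      intro u s
      rw [ENNReal.tsum_comm]
      simp only [ENNReal.tsum_mul_left, tsum_two]
      simp only [← ENNReal.tsum_mul_right, ← ENNReal.tsum_mul_left]
      rw [ENNReal.tsum_comm]
      refine tsum_congr fun z => tsum_congr fun c => ?_
      rw [symm_two S p z c]
      ring
    simp only [h1]
    simp only [← Finset.sum_mul, ENNReal.tsum_mul_right]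
    rw [sq, ← mul_assoc]
    refine mul_le_mul' ?_ le_rfl
    rw [Summable.tsum_finsetSum fun s _ => ENNReal.summable]
    have h2 : ∀ s : Γ, ∑' u, ∑' z, two S p 1 z *
        (two S p z u * ∑' c, two S p (u * s) c * two S p c z) =
        ∑' z, two S p 1 z * ins s (two S p) (kpow (two S p) 2) z z := fun s => by
      rw [ENNReal.tsum_comm]
      refine tsum_congr fun z => ?_
      rw [ENNReal.tsum_mul_left]
      simp only [ins, kpow_two, kmul]
    rw [Finset.sum_congr rfl fun s _ => h2 s, ← Summable.tsum_finsetSum fun s _ => ENNReal.summable]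
    refine le_trans (ENNReal.tsum_le_tsum fun z => ?_) (le_of_eq ?_)
      (b := ∑' z, η * two S p 1 z)
    · rw [← Finset.mul_sum, mul_comm η]
      exact mul_le_mul' le_rfl (hmid z z)
    · rw [ENNReal.tsum_mul_left, chi]

omit [Countable Γ] in
lemma two_toReal (x y : Γ) :
    (two S p x y).toReal = (perc Γ p).real {ω | Conn (cg S) ω x y} := rfl

lemma two_mono {q : unitInterval} (hpq : (p : ℝ) ≤ q) (x y : Γ) : two S p x y ≤ two S q x y := by
  have h := real_mono (measurableSet_conn (H := cg S) x y)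
    (fun ω η he hm => Conn.mono hm he) hpq
  simp only [← two_toReal] at h
  exact (ENNReal.toReal_le_toReal (ne_top_of_le_ne_top ENNReal.one_ne_top (tau_le_one x y))
    (ne_top_of_le_ne_top ENNReal.one_ne_top (tau_le_one x y))).1 h

/-- One sprinkling step. -/
lemma step (hS : Gen S) (a h : unitInterval) (U X : Finset Γ) :
    ∑ x ∈ X, (two S a 1 x).toReal
      + (h : ℝ) * (1 - (a : ℝ)) * ∑ x ∈ X, ∑ i ∈ U ×ˢ S, (Lw S a i.1 i.2 x).toReal
      - (h : ℝ) ^ 2 * (X.card * ((U ×ˢ S).card : ℝ) ^ 2)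
      ≤ ∑ x ∈ X, (two S (orQ a h) 1 x).toReal := by
  have hx : ∀ x, (two S a 1 x).toReal
      + (h : ℝ) * (1 - (a : ℝ)) * ∑ i ∈ U ×ˢ S, (Lw S a i.1 i.2 x).toReal
      - (h : ℝ) ^ 2 * ((U ×ˢ S).card : ℝ) ^ 2 ≤ (two S (orQ a h) 1 x).toReal := by
    intro x
    set μ := perc Γ a
    set ν := (perc Γ a).prod (perc Γ h)
    let G : Γ × Γ → Set ((Sym2 Γ → Bool) × (Sym2 Γ → Bool)) := fun i =>
      (⋃ C : {C : Finset Γ // i.1 ∈ C}, Piece S i.1 i.2 x C) ×ˢ isOpen s(i.1, i.1 * i.2)
    have hGm : ∀ i, MeasurableSet (G i) := fun i =>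
      (MeasurableSet.iUnion fun C => measurableSet_piece _ _ _ _).prod
        (depOn_isOpen _).measurableSet
    set A := {ω : Sym2 Γ → Bool | Conn (cg S) ω 1 x}
    have hA : MeasurableSet A := measurableSet_conn _ _
    have hopen : ∀ e : Sym2 Γ, (perc Γ h).real (isOpen e) = h := fun e => by
      have : perc Γ h (isOpen e) = ENNReal.ofReal h := bern_isOpen e
      rw [measureReal_def, this, ENNReal.toReal_ofReal h.2.1]
    have hGv : ∀ i ∈ U ×ˢ S, ν.real (G i) = (h : ℝ) * (1 - (a : ℝ)) * (Lw S a i.1 i.2 x).toReal := by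
      intro i hi
      rw [measureReal_prod_prod, hopen, measureReal_def,
        perc_iUnion_piece hS (Finset.mem_product.1 hi).2, ENNReal.toReal_mul,
        ENNReal.toReal_ofReal (by linarith [a.2.2])]
      ring
    have hsub : A ×ˢ Set.univ ∪ (⋃ i ∈ U ×ˢ S, G i) ⊆ orCfg ⁻¹' A := by
      rintro ⟨ω, η⟩ (hω | hω)
      · exact Conn.mono hω.1 fun f hf => by simp only at hf; simp [orCfg, hf]
      · obtain ⟨i, hi, hω⟩ := Set.mem_iUnion₂.1 hω
        obtain ⟨hω, hη⟩ := hω
        obtain ⟨C, ⟨hC, -⟩, hoff⟩ := Set.mem_iUnion.1 hω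
        have hle : ∀ f, ω f = true → orCfg (ω, η) f = true := fun f hf => by simp [orCfg, hf]
        have h1 : Conn (cg S) ω 1 i.1 := ((hC : cl (cg S) _ 1 = _).symm ▸ Finset.mem_coe.2 C.2 :
          i.1 ∈ cl (cg S) (del s(i.1, i.1 * i.2) ω) 1).of_del
        have h2 : Conn (cg S) ω (i.1 * i.2) x := by
          obtain ⟨q, hq, -⟩ := off_iff.1 hoff
          exact ⟨q, hq⟩
        have hη' : orCfg (ω, η) s(i.1, i.1 * i.2) = true := by
          simp [orCfg, (show η s(i.1, i.1 * i.2) = true from hη)]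
        exact ((h1.mono hle).trans
          (conn_of_adj (dart_adj hS (Finset.mem_product.1 hi).2) hη')).trans (h2.mono hle)
    have hdis : Disjoint (A ×ˢ (Set.univ : Set (Sym2 Γ → Bool))) (⋃ i ∈ U ×ˢ S, G i) := by
      refine Set.disjoint_left.2 fun z hz hz' => ?_
      obtain ⟨i, -, hω, -⟩ := Set.mem_iUnion₂.1 hz'
      obtain ⟨C, ⟨hC, hcl⟩, hoff⟩ := Set.mem_iUnion.1 hω
      obtain ⟨q, -, hqC⟩ := off_iff.1 hoff
      refine hqC x q.end_mem_support ?_
      have hdel : del s(i.1, i.1 * i.2) z.1 = z.1 := by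
        have hf : z.1 s(i.1, i.1 * i.2) = false := by simpa [isOpen] using hcl
        funext f
        rcases eq_or_ne f s(i.1, i.1 * i.2) with rfl | hne
        · simp [del, hf]
        · simp [del, hne]
      have hC' : cl (cg S) (del s(i.1, i.1 * i.2) z.1) 1 = ↑C.1 := hC
      rw [hdel] at hC'
      rw [← hC']
      exact hz.1
    have hpair : ∀ i ∈ U ×ˢ S, ∀ j ∈ (U ×ˢ S).erase i, ν.real (G i ∩ G j) ≤ (h : ℝ) ^ 2 := by
      intro i hi j hj
      by_cases he : s(i.1, i.1 * i.2) = s(j.1, j.1 * j.2)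
      · have : G i ∩ G j = ∅ := by
          refine Set.eq_empty_of_forall_notMem fun z ⟨⟨hz, _⟩, ⟨hz', _⟩⟩ => ?_
          obtain ⟨C, ⟨hC, -⟩, hoff⟩ := Set.mem_iUnion.1 hz
          obtain ⟨C', ⟨hC', -⟩, -⟩ := Set.mem_iUnion.1 hz'
          rcases Sym2.eq_iff.1 he with ⟨h1, h2⟩ | ⟨h1, h2⟩
          · refine (Finset.ne_of_mem_erase hj).symm (Prod.ext h1 ?_)
            rw [h1] at h2
            exact mul_left_cancel h2
          · have hC₁ : cl (cg S) (del s(i.1, i.1 * i.2) z.1) 1 = ↑C.1 := hC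
            have hC₂ : cl (cg S) (del s(j.1, j.1 * j.2) z.1) 1 = ↑C'.1 := hC'
            rw [← he, hC₁] at hC₂
            obtain ⟨q, -, hq⟩ := off_iff.1 hoff
            refine hq _ q.start_mem_support ?_
            rw [hC₂, h2]
            exact C'.2
        rw [this]
        simp [sq_nonneg]
      · refine (measureReal_mono (s₂ := Set.univ ×ˢ
          Vale.Agent.P165.allOpen {s(i.1, i.1 * i.2), s(j.1, j.1 * j.2)})
          fun z hz => ⟨trivial, fun f hf => ?_⟩).trans ?_
        · rcases Finset.mem_insert.1 hf with rfl | hf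
          · exact hz.1.2
          · rw [Finset.mem_singleton.1 hf]
            exact hz.2.2
        · simp [ν, measureReal_prod_prod, Vale.Agent.P165.real_allOpen, Finset.card_pair he]
    have hbon := Vale.Agent.P165.sum_sub_pairs_le ν G hGm (U ×ˢ S)
    rw [Finset.sum_congr rfl hGv, ← Finset.mul_sum] at hbon
    have hp2 : ∑ i ∈ U ×ˢ S, ∑ j ∈ (U ×ˢ S).erase i, ν.real (G i ∩ G j)
        ≤ ((U ×ˢ S).card : ℝ) ^ 2 * (h : ℝ) ^ 2 := by
      calc _ ≤ ∑ i ∈ U ×ˢ S, ∑ _j ∈ (U ×ˢ S).erase i, (h : ℝ) ^ 2 :=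
            Finset.sum_le_sum fun i hi => Finset.sum_le_sum (hpair i hi)
        _ ≤ ∑ i ∈ U ×ˢ S, ∑ _j ∈ U ×ˢ S, (h : ℝ) ^ 2 :=
            Finset.sum_le_sum fun i _ => Finset.sum_le_sum_of_subset_of_nonneg
              (Finset.erase_subset _ _) fun _ _ _ => sq_nonneg _
        _ = _ := by simp only [Finset.sum_const, nsmul_eq_mul]; ring
    rw [two_toReal, two_toReal, ← map_orCfg a h, map_measureReal_apply measurable_orCfg hA]
    refine le_trans ?_ (measureReal_mono hsub)
    rw [measureReal_union hdis (Finset.measurableSet_biUnion _ fun i _ => hGm i)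
      (measure_ne_top _ _) (measure_ne_top _ _), measureReal_prod_prod, probReal_univ, mul_one]
    linarith
  have := Finset.sum_le_sum fun x (_ : x ∈ X) => hx x
  rw [Finset.sum_sub_distrib, Finset.sum_add_distrib, ← Finset.mul_sum, Finset.sum_const,
    nsmul_eq_mul] at this
  linarith

/-- Sprinkling over an interval. -/
lemma interval (hS : Gen S) {b : unitInterval} (hpb : (p : ℝ) ≤ b) (hb : (b : ℝ) ≤ 1 / 2)
    {η : ℝ} (hη : 0 ≤ η)
    (hyp : ∀ a : unitInterval, (p : ℝ) ≤ a → (a : ℝ) ≤ b → chi S a ≠ ⊤ ∧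
      (a : ℝ) * S.card ≤ 2 ∧
      ∀ x y, ∑ s ∈ S, ins s (two S a) (kpow (two S a) 2) x y ≤ ENNReal.ofReal η)
    (U X : Finset Γ) :
    ∑ x ∈ X, (two S p 1 x).toReal + ((b : ℝ) - p) * ∑ x ∈ X, ∑ i ∈ U ×ˢ S,
        (two S p 1 i.1).toReal * (two S p (i.1 * i.2) x).toReal
      ≤ ∑ x ∈ X, (two S b 1 x).toReal + ((b : ℝ) - p) * ((2 + η) * (chi S b).toReal ^ 2) := by
  set L0 := ∑ x ∈ X, ∑ i ∈ U ×ˢ S, (two S p 1 i.1).toReal * (two S p (i.1 * i.2) x).toReal
  set E := (2 + η) * (chi S b).toReal ^ 2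
  set K := (X.card : ℝ) * ((U ×ˢ S).card : ℝ) ^ 2
  have hbχ := (hyp b hpb le_rfl).1
  -- the uniform lower bound on the gains
  have hL : ∀ a : unitInterval, (p : ℝ) ≤ a → (a : ℝ) ≤ b →
      L0 - E ≤ ∑ x ∈ X, ∑ i ∈ U ×ˢ S, (Lw S a i.1 i.2 x).toReal := by
    intro a hpa hab
    obtain ⟨hχ, haD, hmid⟩ := hyp a hpa hab
    have hLw : ∀ u s x, Lw S a u s x ≠ ⊤ := fun u s x => by
      refine ne_top_of_le_ne_top ENNReal.one_ne_top ?_
      refine (ENNReal.tsum_le_tsum fun C => mul_le_of_le_one_right' prob_le_one).trans ?_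
      refine le_trans (le_of_eq (measure_iUnion (μ := perc Γ a)
        (f := fun C : {C : Finset Γ // u ∈ C} => XC S u s C)
        (fun C C' hne => Set.disjoint_left.2 fun ω h h' =>
          hne (Subtype.ext (Finset.coe_injective (h.symm.trans h'))))
        fun C => measurableSet_cl _ 1 _).symm) prob_le_one
    have htot : ∑' u, ∑ s ∈ S, ∑' x, err S a u s x
        ≤ ENNReal.ofReal (2 + η) * chi S b ^ 2 := by
      refine (tsum_err_le hmid).trans ?_
      refine mul_le_mul' ?_ (pow_le_pow_left' (ENNReal.tsum_le_tsum fun x => two_mono hab 1 x) 2)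
      rw [ENNReal.ofReal_add zero_le_two hη]
      refine add_le_add ?_ le_rfl
      rw [← ENNReal.ofReal_natCast, ← ENNReal.ofReal_mul a.2.1]
      exact ENNReal.ofReal_le_ofReal haD
    have hfin : ∑ x ∈ X, ∑ i ∈ U ×ˢ S, err S a i.1 i.2 x ≤ ENNReal.ofReal (2 + η) * chi S b ^ 2 := by
      refine le_trans ?_ htot
      rw [Finset.sum_comm, Finset.sum_product]
      refine le_trans ?_ (ENNReal.sum_le_tsum U)
      exact Finset.sum_le_sum fun u _ => Finset.sum_le_sum fun s _ => ENNReal.sum_le_tsum X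
    have htop : ENNReal.ofReal (2 + η) * chi S b ^ 2 ≠ ⊤ :=
      ENNReal.mul_ne_top ENNReal.ofReal_ne_top (ENNReal.pow_ne_top hbχ)
    have hkey : ∑ x ∈ X, ∑ i ∈ U ×ˢ S, two S p 1 i.1 * two S p (i.1 * i.2) x
        ≤ ∑ x ∈ X, ∑ i ∈ U ×ˢ S, Lw S a i.1 i.2 x + ENNReal.ofReal (2 + η) * chi S b ^ 2 := by
      refine le_trans ?_ (add_le_add le_rfl hfin)
      simp only [← Finset.sum_add_distrib]
      exact Finset.sum_le_sum fun x _ => Finset.sum_le_sum fun i _ =>
        (mul_le_mul' (two_mono hpa _ _) (two_mono hpa _ _)).trans (two_mul_two_le hχ _ _ _)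
    have hsum : ∑ x ∈ X, ∑ i ∈ U ×ˢ S, Lw S a i.1 i.2 x ≠ ⊤ :=
      ENNReal.sum_ne_top.2 fun x _ => ENNReal.sum_ne_top.2 fun i _ => hLw _ _ _
    have h2 : ∀ x y, two S p x y ≠ ⊤ := fun x y =>
      ne_top_of_le_ne_top ENNReal.one_ne_top (tau_le_one x y)
    have h := ENNReal.toReal_mono (ENNReal.add_ne_top.2 ⟨hsum, htop⟩) hkey
    rw [ENNReal.toReal_add hsum htop, ENNReal.toReal_mul,
      ENNReal.toReal_ofReal (by linarith), ENNReal.toReal_pow,
      ENNReal.toReal_sum fun x _ => ENNReal.sum_ne_top.2 fun i _ =>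
        ENNReal.mul_ne_top (h2 _ _) (h2 _ _),
      ENNReal.toReal_sum fun x _ => ENNReal.sum_ne_top.2 fun i _ => hLw _ _ _] at h
    simp only [ENNReal.toReal_sum fun i _ => hLw _ _ _,
      ENNReal.toReal_sum fun i _ => ENNReal.mul_ne_top (h2 _ _) (h2 _ _), ENNReal.toReal_mul] at h
    linarith
  set d := (b : ℝ) - p with hd
  have hd0 : 0 ≤ d := by linarith
  have key : ∀ N : ℕ, 2 * d ≤ N + 1 → ∑ x ∈ X, (two S p 1 x).toReal + d * (L0 - E)
      - 4 * K * d ^ 2 / ((N : ℝ) + 1) ≤ ∑ x ∈ X, (two S b 1 x).toReal := by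
    intro N hN
    have hM : (0 : ℝ) < (N : ℝ) + 1 := by positivity
    set δ := d / ((N : ℝ) + 1) with hδ
    have hδ0 : 0 ≤ δ := by positivity
    have hk : ∀ k : ℕ, k ≤ N + 1 → (p : ℝ) + k * δ ≤ b := fun k hk => by
      have h1 : (k : ℝ) ≤ (N : ℝ) + 1 := by exact_mod_cast hk
      have h2 : ((N : ℝ) + 1) * δ = d := by rw [hδ]; field_simp
      nlinarith
    have hP : ∀ k : ℕ, k ≤ N + 1 → ∀ a : unitInterval, (a : ℝ) = p + k * δ →
        ∑ x ∈ X, (two S p 1 x).toReal + k * δ * (L0 - E) - k * (4 * K * δ ^ 2)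
          ≤ ∑ x ∈ X, (two S a 1 x).toReal := by
      intro k
      induction k with
      | zero =>
        intro _ a ha
        have : a = p := Subtype.ext (by simpa using ha)
        subst this
        simp
      | succ k ih =>
        intro hk' a' ha'
        have hk0 : (p : ℝ) + k * δ ≤ b := hk k (by omega)
        have hka : (p : ℝ) ≤ p + k * δ := by linarith [mul_nonneg (Nat.cast_nonneg (α := ℝ) k) hδ0]
        set a : unitInterval := ⟨p + k * δ, by linarith [p.2.1], by linarith⟩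
        have ha1 : (0 : ℝ) < 1 - (a : ℝ) := by show 0 < 1 - ((p : ℝ) + k * δ); linarith
        have hh1 : δ / (1 - (a : ℝ)) ≤ 2 * δ := by
          rw [div_le_iff₀ ha1]
          have : (a : ℝ) ≤ 1 / 2 := le_trans hk0 hb
          nlinarith
        have hh2 : δ / (1 - (a : ℝ)) ≤ 1 := hh1.trans (by
          rw [hδ, ← mul_div_assoc, div_le_one hM]; exact hN)
        set h : unitInterval := ⟨δ / (1 - (a : ℝ)), div_nonneg hδ0 ha1.le, hh2⟩
        have hor : orQ a h = a' := Subtype.ext (by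
          rw [coe_orQ, ha']
          show (p : ℝ) + k * δ + (1 - (a : ℝ)) * (δ / (1 - (a : ℝ))) = _
          rw [mul_div_cancel₀ _ ha1.ne']
          push_cast; ring)
        have hs := step hS a h U X
        rw [hor] at hs
        have hgain : (h : ℝ) * (1 - (a : ℝ)) = δ := div_mul_cancel₀ _ ha1.ne'
        rw [hgain] at hs
        have h3 := mul_le_mul_of_nonneg_left (hL a hka hk0) hδ0
        have h4 : (h : ℝ) ^ 2 * K ≤ 4 * K * δ ^ 2 := by
          have : (h : ℝ) ^ 2 ≤ (2 * δ) ^ 2 := pow_le_pow_left₀ h.2.1 hh1 2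
          calc (h : ℝ) ^ 2 * K ≤ (2 * δ) ^ 2 * K := mul_le_mul_of_nonneg_right this (by positivity)
            _ = _ := by ring
        have h5 := ih (by omega) a rfl
        push_cast
        linarith
    have h6 := hP (N + 1) le_rfl b (by rw [hδ]; push_cast; field_simp; linarith)
    have e1 : ((N + 1 : ℕ) : ℝ) * δ = d := by rw [hδ]; push_cast; field_simp
    have e2 : ((N + 1 : ℕ) : ℝ) * (4 * K * δ ^ 2) = 4 * K * d ^ 2 / ((N : ℝ) + 1) := by
      rw [hδ]; push_cast; field_simp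
    rw [e1, e2] at h6
    linarith
  refine le_of_forall_pos_le_add fun ε hε => ?_
  obtain ⟨N, hN⟩ := exists_nat_gt (max (4 * K * d ^ 2 / ε) (2 * d))
  have h1 := key N (by linarith [le_max_right (4 * K * d ^ 2 / ε) (2 * d)])
  have h2 : 4 * K * d ^ 2 / ((N : ℝ) + 1) ≤ ε := by
    rw [div_le_iff₀ (by positivity)]
    have := (div_lt_iff₀ hε).1 ((le_max_left _ _).trans_lt hN)
    nlinarith
  linarith

/-- The differential inequality for the susceptibility, integrated over an interval. -/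
lemma chi_interval (hS : Gen S) {b : unitInterval} (hpb : (p : ℝ) ≤ b) (hb : (b : ℝ) ≤ 1 / 2)
    {η : ℝ} (hη : 0 ≤ η)
    (hyp : ∀ a : unitInterval, (p : ℝ) ≤ a → (a : ℝ) ≤ b → chi S a ≠ ⊤ ∧
      (a : ℝ) * S.card ≤ 2 ∧
      ∀ x y, ∑ s ∈ S, ins s (two S a) (kpow (two S a) 2) x y ≤ ENNReal.ofReal η) :
    (chi S p).toReal + ((b : ℝ) - p) * ((S.card : ℝ) * (chi S p).toReal ^ 2)
      ≤ (chi S b).toReal + ((b : ℝ) - p) * ((2 + η) * (chi S b).toReal ^ 2) := by
  set d := (b : ℝ) - p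
  have hχ := (hyp p le_rfl hpb).1
  have hχb := (hyp b hpb le_rfl).1
  have hne : ∀ (q : unitInterval) x y, two S q x y ≠ ⊤ := fun q x y =>
    ne_top_of_le_ne_top ENNReal.one_ne_top (tau_le_one x y)
  have hf : Summable fun x => (two S p 1 x).toReal := ENNReal.summable_toReal hχ
  set g : (Γ × Γ) → ℝ := fun z => ∑ s ∈ S, (two S p 1 z.1).toReal * (two S p (z.1 * s) z.2).toReal
  have hgE : ∀ s : Γ, HasSum (fun z : Γ × Γ => (two S p 1 z.1).toReal * (two S p (z.1 * s) z.2).toReal)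
      ((chi S p).toReal ^ 2) := by
    intro s
    have h0 : ∑' z : Γ × Γ, two S p 1 z.1 * two S p (z.1 * s) z.2 = chi S p ^ 2 := by
      rw [ENNReal.tsum_prod']
      simp only [ENNReal.tsum_mul_left, tsum_two, ENNReal.tsum_mul_right]
      rw [sq]
    have := ENNReal.hasSum_toReal (f := fun z : Γ × Γ => two S p 1 z.1 * two S p (z.1 * s) z.2)
      (by rw [h0]; exact ENNReal.pow_ne_top hχ)
    rw [← ENNReal.tsum_toReal_eq (fun z => ENNReal.mul_ne_top (hne _ _ _) (hne _ _ _)), h0,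
      ENNReal.toReal_pow] at this
    simpa only [ENNReal.toReal_mul] using this
  have hg : HasSum g ((S.card : ℝ) * (chi S p).toReal ^ 2) := by
    have := hasSum_sum fun s (_ : s ∈ S) => hgE s
    simpa using this
  have hb' : Summable fun x => (two S b 1 x).toReal := ENNReal.summable_toReal hχb
  have hbt : ∀ X : Finset Γ, ∑ x ∈ X, (two S b 1 x).toReal ≤ (chi S b).toReal := fun X => by
    rw [chi, ENNReal.tsum_toReal_eq (hne b 1)]
    exact hb'.sum_le_tsum X fun x _ => ENNReal.toReal_nonneg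
  set R := (chi S b).toReal + d * ((2 + η) * (chi S b).toReal ^ 2)
  have key : ∀ (X₀ : Finset Γ) (F : Finset (Γ × Γ)),
      ∑ x ∈ X₀, (two S p 1 x).toReal + d * ∑ z ∈ F, g z ≤ R := by
    intro X₀ F
    have h := interval hS hpb hb hη hyp (F.image Prod.fst) (X₀ ∪ F.image Prod.snd)
    refine le_trans (add_le_add (Finset.sum_le_sum_of_subset_of_nonneg Finset.subset_union_left
      fun _ _ _ => ENNReal.toReal_nonneg) (mul_le_mul_of_nonneg_left ?_ (by linarith)))
      (h.trans (add_le_add (hbt _) le_rfl))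
    calc ∑ z ∈ F, g z ≤ ∑ z ∈ F.image Prod.fst ×ˢ (X₀ ∪ F.image Prod.snd), g z :=
          Finset.sum_le_sum_of_subset_of_nonneg (fun z hz => Finset.mem_product.2
            ⟨Finset.mem_image_of_mem _ hz, Finset.mem_union_right _ (Finset.mem_image_of_mem _ hz)⟩)
            fun z _ _ => Finset.sum_nonneg fun s _ =>
              mul_nonneg ENNReal.toReal_nonneg ENNReal.toReal_nonneg
      _ = _ := by
          rw [Finset.sum_product, Finset.sum_comm]
          exact Finset.sum_congr rfl fun x _ => by rw [Finset.sum_product]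
  rcases eq_or_lt_of_le (show (0 : ℝ) ≤ d by linarith) with hd0 | hd0
  · have hpeq : p = b := Subtype.ext (by linarith)
    rw [← hd0, hpeq]
    simp [R, ← hd0]
  have h1 : ∀ F : Finset (Γ × Γ), (chi S p).toReal ≤ R - d * ∑ z ∈ F, g z := fun F => by
    rw [chi, ENNReal.tsum_toReal_eq (hne p 1)]
    exact hf.tsum_le_of_sum_le fun X => by linarith [key X F]
  have h2 : (S.card : ℝ) * (chi S p).toReal ^ 2 ≤ (R - (chi S p).toReal) / d := by
    rw [← hg.tsum_eq]
    refine hg.summable.tsum_le_of_sum_le fun F => ?_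
    rw [le_div_iff₀ hd0]
    linarith [h1 F]
  rw [le_div_iff₀ hd0] at h2
  linarith

lemma gain_step {D A B δ : ℝ} (hD : 100 ≤ D) (hA : 0 < A) (hAB : A ≤ B) (hδ : 0 ≤ δ)
    (hsmall : δ * D * B ≤ 2) (h : A + δ * (D * A ^ 2) ≤ B + δ * ((2 + D / 40) * B ^ 2)) :
    1 / 4 * D * δ ≤ 1 / A - 1 / B := by
  have hB : 0 < B := hA.trans_le hAB
  rw [div_sub_div _ _ hA.ne' hB.ne', le_div_iff₀ (mul_pos hA hB)]
  have hDδ : 0 ≤ D * δ := mul_nonneg (by linarith) hδ
  rcases le_or_gt B (2 * A) with h2 | h2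
  · have h3 : (2 + D / 40) * B ^ 2 ≤ 9 / 200 * D * (4 * A ^ 2) := by
      calc (2 + D / 40) * B ^ 2 ≤ 9 / 200 * D * B ^ 2 := by gcongr; linarith
        _ ≤ 9 / 200 * D * (2 * A) ^ 2 := by gcongr
        _ = _ := by ring
    have h4 := mul_le_mul_of_nonneg_left h3 hδ
    have h5 : 1 / 4 * D * δ * (A * B) ≤ 1 / 4 * D * δ * (A * (2 * A)) := by gcongr
    nlinarith [mul_nonneg hDδ (sq_nonneg A)]
  · have h5 : 1 / 4 * D * δ * (A * B) ≤ 1 / 4 * A * 2 := by
      calc 1 / 4 * D * δ * (A * B) = 1 / 4 * A * (δ * D * B) := by ring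
        _ ≤ _ := by gcongr
    linarith

/-- **The mean-field lower bound on the susceptibility.** -/
theorem chi_lower : ∃ ε₀ : ℝ, 0 < ε₀ ∧ ∃ c : ℝ, 0 < c ∧ ∃ D₀ : ℕ,
    ∀ (Γ : Type) [Group Γ] [DecidableEq Γ] [Countable Γ] (S : Finset Γ), Gen S → D₀ ≤ S.card →
    (∀ p : unitInterval, (p : ℝ) < pc (cg S) → chi S p ≠ ⊤ ∧ (p : ℝ) * S.card ≤ 2 ∧
      ∀ x y, ∑ s ∈ S, ins s (two S p) (kpow (two S p) 2) x y ≤ ENNReal.ofReal ε₀ * S.card) →
    ∀ p p₂ : unitInterval, (p : ℝ) < p₂ → (p₂ : ℝ) < pc (cg S) →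
      ((p₂ : ℝ) - p) * c * S.card ≤ 1 / (chi S p).toReal := by
  refine ⟨1 / 40, by norm_num, 1 / 4, by norm_num, 100, ?_⟩
  intro Γ _ _ _ S hS hcard hyp p p₂ hpp hp₂
  have hD : (100 : ℝ) ≤ S.card := by exact_mod_cast hcard
  set D : ℝ := (S.card : ℝ) with hDdef
  have hhalf : ∀ q : unitInterval, (q : ℝ) < pc (cg S) → (q : ℝ) ≤ 1 / 2 := fun q hq => by
    have := (hyp q hq).2.1
    nlinarith [q.2.1]
  have hone : ∀ q : unitInterval, chi S q ≠ ⊤ → 1 ≤ (chi S q).toReal := fun q hq => by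
    have h := ENNReal.toReal_mono hq (ENNReal.le_tsum (f := fun x => two S q 1 x) 1)
    simpa [two, tau_self] using h
  have hmono : ∀ q r : unitInterval, (q : ℝ) ≤ r → chi S r ≠ ⊤ →
      (chi S q).toReal ≤ (chi S r).toReal := fun q r hqr hr =>
    ENNReal.toReal_mono hr (ENNReal.tsum_le_tsum fun x => two_mono hqr 1 x)
  have hX2 := hone p₂ (hyp p₂ hp₂).1
  set X := (chi S p₂).toReal
  set d := (p₂ : ℝ) - p with hd
  obtain ⟨N, hN⟩ := exists_nat_gt (d * D * X)
  have hM : (0 : ℝ) < (N : ℝ) + 1 := by positivity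
  set δ := d / ((N : ℝ) + 1) with hδ
  have hδ0 : 0 ≤ δ := div_nonneg (by linarith) hM.le
  have htot : ((N : ℝ) + 1) * δ = d := by rw [hδ]; field_simp
  have hk : ∀ k : ℕ, k ≤ N + 1 → ∀ a : unitInterval, (a : ℝ) = p + k * δ →
      (k : ℝ) * (1 / 4 * D * δ) ≤ 1 / (chi S p).toReal - 1 / (chi S a).toReal := by
    intro k
    induction k with
    | zero =>
      intro _ a ha
      have : a = p := Subtype.ext (by simpa using ha)
      subst this
      simp
    | succ k ih =>
      intro hk b hb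
      have hk' : ((k + 1 : ℕ) : ℝ) ≤ (N : ℝ) + 1 := by exact_mod_cast hk
      have hb2 : (b : ℝ) ≤ p₂ := by rw [hb]; nlinarith
      push_cast at hk' hb
      have hk0 : 0 ≤ (k : ℝ) * δ := by positivity
      set a : unitInterval := ⟨p + k * δ, by linarith [p.2.1], by linarith [p₂.2.2]⟩ with ha
      have hab : (a : ℝ) ≤ b := by rw [hb]; show (p : ℝ) + k * δ ≤ _; linarith
      have hbc : (b : ℝ) < pc (cg S) := hb2.trans_lt hp₂
      have hχb := (hyp b hbc).1
      have hA := hone a (hyp a (hab.trans_lt hbc)).1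
      have hint := chi_interval (p := a) hS hab (hhalf b hbc) (η := 1 / 40 * D) (by positivity)
        fun q _ hq => ⟨(hyp q (hq.trans_lt hbc)).1, (hyp q (hq.trans_lt hbc)).2.1, fun x y => by
          rw [ENNReal.ofReal_mul (by norm_num), hDdef, ENNReal.ofReal_natCast]
          exact (hyp q (hq.trans_lt hbc)).2.2 x y⟩
      have hstep : (b : ℝ) - a = δ := by rw [hb]; show _ - ((p : ℝ) + k * δ) = δ; ring
      rw [hstep] at hint
      have hsmall : δ * D * (chi S b).toReal ≤ 2 := by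
        calc δ * D * (chi S b).toReal ≤ δ * D * X := by
              gcongr; exact hmono b p₂ hb2 (hyp p₂ hp₂).1
          _ ≤ 1 := by rw [hδ, div_mul_eq_mul_div, div_mul_eq_mul_div, div_le_one hM]; linarith
          _ ≤ 2 := one_le_two
      have hg := gain_step hD (by linarith) (hmono a b hab hχb) hδ0 hsmall (by linarith)
      have h1 := ih (by omega) a rfl
      push_cast
      linarith
  have h := hk (N + 1) le_rfl p₂ (by push_cast; linarith)
  have : 0 ≤ 1 / X := by positivity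
  push_cast at h
  calc d * (1 / 4) * D = ((N : ℝ) + 1) * (1 / 4 * D * δ) := by rw [← htot]; ring
    _ ≤ _ := by linarith

end Vale.Agent.P151.LowerBound
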