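import Mathlib
import Vale.Agent.P151.Interfaces
import Vale.Agent.P151.Critical.Growth
import Vale.Agent.P151.Critical.Exit

/-!
No infinite cluster at the critical point, from the lower bound on the growth of the susceptibility.
-/

namespace Vale.Agent.P151.Critical

open MeasureTheory Finset Filter
open Vale.Agent.P165 (perc pc openGraph toInf real_toInf_map)
open Vale.Agent.P165.Product (connIn exitB edgesAt connIn_of_walk)
open scoped ENNReal Topology

variable {Γ : Type} [Group Γ] [Countable Γ] [DecidableEq Γ] {S : Finset Γ}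

omit [Countable Γ] in
lemma card_incident_le (hS : Gen S) (B : Finset Γ) (z : Γ) :
    ((edgesAt (cg S) B).filter fun e => z ∈ e).card ≤ S.card := by
  refine (card_le_card (t := S.image fun s => s(z, z * s)) fun e he => ?_).trans card_image_le
  obtain ⟨he, hz⟩ := mem_filter.1 he
  obtain ⟨a, -, he⟩ := mem_biUnion.1 he
  obtain ⟨b, hb, rfl⟩ := mem_image.1 he
  rw [SimpleGraph.mem_neighborFinset] at hb
  rcases Sym2.mem_iff.1 hz with rfl | rfl
  · exact mem_image.2 ⟨_, hS.adj_iff.1 hb, by simp⟩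
  · exact mem_image.2 ⟨_, hS.adj_iff.1 hb.symm, by simp [Sym2.eq_swap]⟩

/-- The expected number of edges at the cluster is at most degree times susceptibility. -/
lemma sum_reach_le (hS : Gen S) {B : Finset Γ} (h1 : (1 : Γ) ∈ B) {q : unitInterval}
    (hq : chi S q ≠ ⊤) :
    ∑ e ∈ edgesAt (cg S) B, ex (edgesAt (cg S) B) ((reach (cg S) B 1 e).indicator 1) q
      ≤ S.card * (chi S q).toReal := by
  classical
  set E := edgesAt (cg S) B
  have h : ∑ e ∈ E, perc Γ q (reach (cg S) B 1 e) ≤ S.card * chi S q := by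
    calc ∑ e ∈ E, perc Γ q (reach (cg S) B 1 e)
        ≤ ∑ e ∈ E, ∑ z ∈ B with z ∈ e, two S q 1 z := by
          refine sum_le_sum fun e _ => le_trans (measure_mono ?_) (measure_biUnion_finset_le _ _)
          rintro ω ⟨z, hz, hzB, hc⟩
          obtain ⟨r, -, hr, -⟩ := path_of_connIn h1 hc
          exact Set.mem_iUnion₂.2 ⟨z, mem_filter.2 ⟨hzB, hz⟩,
            r, hr.imp fun f hf => del_le e f hf⟩
      _ = ∑ z ∈ B, (E.filter fun e => z ∈ e).card • two S q 1 z := by
          simp only [sum_filter]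
          rw [sum_comm]
          exact sum_congr rfl fun z _ => by rw [← sum_filter, sum_const]
      _ ≤ ∑ z ∈ B, (S.card : ℝ≥0∞) * two S q 1 z := sum_le_sum fun z _ => by
          rw [nsmul_eq_mul]
          exact mul_le_mul_left (Nat.cast_le.2 (card_incident_le hS B z)) _
      _ ≤ _ := by rw [← mul_sum]; exact mul_le_mul_right (sum_two_le q 1 B) _
  have h' := ENNReal.toReal_mono (ENNReal.mul_ne_top (ENNReal.natCast_ne_top _) hq) h
  rw [ENNReal.toReal_sum fun _ _ => measure_ne_top _ _, ENNReal.toReal_mul,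
    ENNReal.toReal_natCast] at h'
  refine le_trans (le_of_eq (sum_congr rfl fun e _ => ?_)) h'
  exact (real_eq_ex (dep_reach (H := cg S) (B := B) (o := 1) e)).symm

/-- The exit probability grows slowly up to the critical point. -/
lemma exit_le (hS : Gen S) {B : Finset Γ} (h1 : (1 : Γ) ∈ B) {a c : unitInterval}
    (ha : 0 < (a : ℝ)) (hac : (a : ℝ) < c) (hc : (c : ℝ) ≤ 1 / 2)
    (hchi : ∀ q : unitInterval, (q : ℝ) < c →
      chi S q ≠ ⊤ ∧ (S.card : ℝ) * (chi S q).toReal ≤ 4 / ((c : ℝ) - q))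
    {δ : ℝ} (hδ : 0 < δ) :
    Real.sqrt (gB (cg S) B 1 c) ≤
      Real.sqrt (gB (cg S) B 1 a + δ) + 3 * Real.sqrt (((c : ℝ) - a) / a) := by
  set g := gB (cg S) B 1
  let F : ℝ → ℝ := fun s => Real.sqrt (g s + δ) + 3 * Real.sqrt (((c : ℝ) - s) / a)
  have hg0 : ∀ s, 0 ≤ s → s ≤ 1 → 0 ≤ g s := fun s h h' =>
    ex_nonneg (fun ω => Set.indicator_nonneg (fun _ _ => zero_le_one) ω) h h'
  have hcont : ContinuousOn F (Set.Icc (a : ℝ) c) := by
    refine Continuous.continuousOn ?_
    exact ((continuous_ex _ _).add continuous_const).sqrt.add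
      (continuous_const.mul (((continuous_const.sub continuous_id).div_const _).sqrt))
  have hder : ∀ s ∈ Set.Ioo (a : ℝ) c, ∃ d, HasDerivAt F d s ∧ d ≤ 0 := by
    rintro s ⟨has, hsc⟩
    have hs0 : 0 < s := ha.trans has
    have hs1 : s ≤ 1 / 2 := hsc.le.trans hc
    let q : unitInterval := ⟨s, hs0.le, by linarith⟩
    obtain ⟨d, hd, hsq⟩ := sq_deriv_le (H := cg S) h1 (s := s) hs0.le (by linarith)
    obtain ⟨hqfin, hqchi⟩ := hchi q hsc
    have hJ : ∑ e ∈ edgesAt (cg S) B, ex (edgesAt (cg S) B) ((reach (cg S) B 1 e).indicator 1) s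
        ≤ 4 / ((c : ℝ) - s) := (sum_reach_le hS h1 hqfin (q := q)).trans hqchi
    have hgs : 0 ≤ g s := hg0 s hs0.le (by linarith)
    have hpos : 0 < g s + δ := by linarith
    have hcs : 0 < ((c : ℝ) - s) / a := div_pos (by linarith) ha
    have hr := Real.sq_sqrt hpos.le
    have hu := Real.sq_sqrt hcs.le
    have hrpos := Real.sqrt_pos.2 hpos
    have hupos := Real.sqrt_pos.2 hcs
    set r := Real.sqrt (g s + δ)
    set u := Real.sqrt (((c : ℝ) - s) / a)
    have hF := ((hd.add_const δ).sqrt hpos.ne').add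
      ((((hasDerivAt_id s).const_sub (c : ℝ)).div_const (a : ℝ)).sqrt hcs.ne' |>.const_mul 3)
    refine ⟨_, hF, ?_⟩
    simp only [id_eq]
    change d / (2 * r) + 3 * (-1 / a / (2 * u)) ≤ 0
    have hS0 : 0 < s * (1 - s) := mul_pos hs0 (by linarith)
    have hbound : d ^ 2 * (s * (1 - s)) ≤ (g s + δ) * (4 / ((c : ℝ) - s)) := by
      have hmul : s * (1 - s) * (d ^ 2 * (s * (1 - s))) ≤
          s * (1 - s) * ((g s + δ) * (4 / ((c : ℝ) - s))) := by
        refine le_trans (le_of_eq (by ring)) (hsq.trans ?_)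
        rw [mul_left_comm]
        exact mul_le_mul_of_nonneg_left (mul_le_mul (by linarith) hJ
          (sum_nonneg fun e _ => ex_nonneg (fun ω => Set.indicator_nonneg
            (fun _ _ => zero_le_one) ω) hs0.le (by linarith)) hpos.le) hS0.le
      exact le_of_mul_le_mul_left hmul hS0
    have hd2 : (d * a * u) ^ 2 ≤ (3 * r) ^ 2 := by
      have ha2 : (a : ℝ) * (1 / 2) ≤ s * (1 - s) :=
        mul_le_mul has.le (by linarith) (by norm_num) hs0.le
      have h2 : d ^ 2 * ((a : ℝ) * (1 / 2)) ≤ (g s + δ) * (4 / ((c : ℝ) - s)) :=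
        (mul_le_mul_of_nonneg_left ha2 (sq_nonneg d)).trans hbound
      have h3 : d ^ 2 * (a : ℝ) * ((c : ℝ) - s) ≤ 8 * (g s + δ) := by
        rw [show (g s + δ) * (4 / ((c : ℝ) - s)) = (g s + δ) * 4 / ((c : ℝ) - s) from
          (mul_div_assoc _ _ _).symm, le_div_iff₀ (sub_pos.2 hsc)] at h2
        linarith
      calc (d * a * u) ^ 2 = d ^ 2 * a ^ 2 * u ^ 2 := by ring
        _ = d ^ 2 * a * ((c : ℝ) - s) := by rw [hu]; field_simp
        _ ≤ 8 * (g s + δ) := h3
        _ ≤ (3 * r) ^ 2 := by rw [mul_pow, hr]; linarith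
    have hle : d * a * u ≤ 3 * r :=
      (le_abs_self _).trans (abs_le_of_sq_le_sq hd2 (by positivity))
    have : d / (2 * r) + 3 * (-1 / a / (2 * u)) = (d * a * u - 3 * r) / (2 * r * a * u) := by
      field_simp
      ring
    rw [this]
    exact div_nonpos_of_nonpos_of_nonneg (by linarith) (by positivity)
  have hanti : AntitoneOn F (Set.Icc (a : ℝ) c) := by
    refine antitoneOn_of_deriv_nonpos (convex_Icc _ _) hcont ?_ ?_ <;> intro s hs <;>
      rw [interior_Icc] at hs <;> obtain ⟨d, hd, hd0⟩ := hder s hs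
    · exact hd.differentiableAt.differentiableWithinAt
    · exact hd.deriv.trans_le hd0
  have h := hanti (Set.left_mem_Icc.2 hac.le) (Set.right_mem_Icc.2 hac.le) hac.le
  simp only [F, sub_self, zero_div, Real.sqrt_zero, mul_zero, add_zero] at h
  exact (Real.sqrt_le_sqrt (by linarith)).trans h

omit [Group Γ] [Countable Γ] in
lemma toInf_subset_exitB {H : SimpleGraph Γ} {B : Finset Γ} {o : Γ} (ho : o ∈ B) :
    toInf H o ⊆ exitB H B o := by
  intro ω hω
  obtain ⟨y, hy, hyB⟩ := hω.exists_notMem_finset B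
  obtain ⟨q⟩ := hy
  suffices ∀ {a : Γ}, (openGraph H ω).Walk a y → a ∈ B → ω ∈ exitB H B a from this q ho
  clear q
  intro a q
  induction q with
  | nil => exact fun h => absurd h hyB
  | @cons a b c hab q ih =>
    exact fun ha => Vale.Agent.P165.Product.exitB_step ha hab.1 hab.2
      (by by_cases hb : b ∈ B
          · exact Or.inr (ih hyB hb)
          · exact Or.inl hb)

lemma exit_small {a : unitInterval} (ha : chi S a ≠ ⊤) {η : ℝ} (hη : 0 < η) :
    ∃ B : Finset Γ, (1 : Γ) ∈ B ∧ gB (cg S) B 1 a ≤ η := by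
  have htail := ENNReal.tendsto_tsum_compl_atTop_zero (f := two S a 1) (by rw [tsum_two]; exact ha)
  obtain ⟨B, hB, hB1⟩ := ((htail.eventually (gt_mem_nhds (ENNReal.ofReal_pos.2 hη))).and
    (eventually_ge_atTop ({1} : Finset Γ))).exists
  have h1 : (1 : Γ) ∈ B := hB1 (mem_singleton_self _)
  refine ⟨B, h1, ?_⟩
  rw [gB, ← real_eq_ex (dep_exitB h1)]
  have h : perc Γ a (exitB (cg S) B 1) ≤ ∑' y : {y // y ∉ B}, two S a 1 y := by
    refine le_trans (measure_mono ?_) (measure_iUnion_le _)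
    rintro ω ⟨u, v, hv, huv, ho, hc⟩
    obtain ⟨r, -, hr, -⟩ := path_of_connIn h1 hc
    exact Set.mem_iUnion.2 ⟨⟨v, hv⟩, Conn.trans ⟨r, hr⟩ (conn_of_adj huv ho)⟩
  have h' := ENNReal.toReal_mono ENNReal.ofReal_ne_top (h.trans hB.le)
  rwa [ENNReal.toReal_ofReal hη.le] at h'

/-- The origin does not percolate at the critical point. -/
theorem real_toInf_pc (hS : Gen S) (hD : 16 ≤ S.card)
    (hyp : ∀ p : unitInterval, (p : ℝ) < pc (cg S) → chi S p ≠ ⊤ ∧ (p : ℝ) * S.card ≤ 2 ∧
      ∀ x y, ∑ s ∈ S, ins s (two S p) (kpow (two S p) 2) x y ≤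
        ENNReal.ofReal (1 / 4) * S.card)
    (p : unitInterval) (hp : (p : ℝ) = pc (cg S)) :
    (perc Γ p).real (toInf (cg S) 1) = 0 := by
  have hD0 : (16 : ℝ) ≤ S.card := by exact_mod_cast hD
  rcases eq_or_lt_of_le p.2.1 with hp0 | hp0
  · refine (measureReal_eq_zero_iff (measure_ne_top _ _)).2 ?_
    refine measure_mono_null (t := ⋃ e : Sym2 Γ, Vale.Agent.P165.allOpen {e}) ?_
      (measure_iUnion_null_iff.2 fun e => ?_)
    · intro ω hω
      obtain ⟨u, hu, hu1⟩ := hω.exists_notMem_finset {1}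
      obtain ⟨q⟩ := hu
      cases q with
      | nil => simp at hu1
      | @cons _ v _ h q =>
        exact Set.mem_iUnion.2 ⟨s(1, v), by simpa [Vale.Agent.P165.allOpen] using h.2⟩
    · refine (measureReal_eq_zero_iff (measure_ne_top _ _)).1 ?_
      rw [Vale.Agent.P165.real_allOpen]
      simp [← hp0]
  have hhalf : (p : ℝ) ≤ 1 / 2 := by
    refine le_of_forall_lt_imp_le_of_dense fun r hr => ?_
    rcases le_or_gt r 0 with h | h
    · linarith
    · have := (hyp ⟨r, h.le, hr.le.trans p.2.2⟩ (hp ▸ hr)).2.1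
      simp only at this
      nlinarith
  have hchi : ∀ q : unitInterval, (q : ℝ) < p →
      chi S q ≠ ⊤ ∧ (S.card : ℝ) * (chi S q).toReal ≤ 4 / ((p : ℝ) - q) := by
    intro q hq
    refine ⟨(hyp q (hp ▸ hq)).1, ?_⟩
    have h := chi_le_div hS hD hyp (hp ▸ p.2.2) (a := q) (hp ▸ hq)
    rw [← hp, ← div_div] at h
    calc (S.card : ℝ) * (chi S q).toReal ≤ S.card * (4 / S.card / ((p : ℝ) - q)) :=
          mul_le_mul_of_nonneg_left h (by positivity)
      _ = 4 / ((p : ℝ) - q) := by field_simp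
  have key : ∀ r : ℝ, 0 < r → r < p →
      Real.sqrt ((perc Γ p).real (toInf (cg S) 1)) ≤ 3 * Real.sqrt (((p : ℝ) - r) / r) := by
    intro r hr0 hrp
    refine le_of_forall_pos_le_add fun ε hε => ?_
    let a : unitInterval := ⟨r, hr0.le, hrp.le.trans p.2.2⟩
    obtain ⟨B, h1, hB⟩ := exit_small (hchi a hrp).1 (η := ε ^ 2 / 2) (by positivity)
    have h := exit_le hS h1 (a := a) hr0 hrp hhalf hchi (δ := ε ^ 2 / 2) (by positivity)
    have hθ : (perc Γ p).real (toInf (cg S) 1) ≤ gB (cg S) B 1 p := by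
      rw [gB, ← real_eq_ex (dep_exitB h1)]
      exact measureReal_mono (toInf_subset_exitB h1)
    have hsq : Real.sqrt (gB (cg S) B 1 r + ε ^ 2 / 2) ≤ ε := by
      have hB' : gB (cg S) B 1 r ≤ ε ^ 2 / 2 := hB
      exact (Real.sqrt_le_sqrt (by linarith : gB (cg S) B 1 r + ε ^ 2 / 2 ≤ ε ^ 2)).trans_eq
        (Real.sqrt_sq hε.le)
    have h' := (Real.sqrt_le_sqrt hθ).trans h
    simp only [a] at h'
    linarith
  have hlim : Tendsto (fun r : ℝ => 3 * Real.sqrt (((p : ℝ) - r) / r)) (𝓝[<] (p : ℝ)) (𝓝 0) := by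
    have hc : ContinuousAt (fun r : ℝ => 3 * Real.sqrt (((p : ℝ) - r) / r)) (p : ℝ) :=
      (((continuousAt_const.sub continuousAt_id).div continuousAt_id hp0.ne').sqrt).const_mul _
    simpa using hc.tendsto.mono_left nhdsWithin_le_nhds
  have h0 : Real.sqrt ((perc Γ p).real (toInf (cg S) 1)) ≤ 0 :=
    ge_of_tendsto hlim (by filter_upwards [Ioo_mem_nhdsLT hp0] with r hr using key r hr.1 hr.2)
  exact (Real.sqrt_eq_zero measureReal_nonneg).1 (le_antisymm h0 (Real.sqrt_nonneg _))

end Vale.Agent.P151.Critical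

namespace Vale.Agent.P151

open Vale.Agent.P165 (perc openGraph toInf real_toInf_map) in
open MeasureTheory in
/-- The mean-field lower bound on the susceptibility gives no percolation at the critical point. -/
theorem criticalStmt_ok : CriticalStmt := by
  refine ⟨1 / 4, by norm_num, 16, ?_⟩
  intro Γ _ _ _ S hS hD hyp p hp
  have h0 := Critical.real_toInf_pc hS hD hyp p hp
  have he : {ω | ∃ x, {y | (openGraph (cg S) ω).Reachable x y}.Infinite}
      = ⋃ x, toInf (cg S) x := by
    ext ω; simp [toInf]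
  rw [he]
  refine measure_iUnion_null fun x => (measureReal_eq_zero_iff (measure_ne_top _ _)).1 ?_
  have h := real_toInf_map (p := p) (shift S x) 1
  rw [h0, show shift S x 1 = x from mul_one x] at h
  exact h

end Vale.Agent.P151
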